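import Vale.Agent.P273.H973.Collapse

/-!
# P273, block OMEGA (helper973): analysis of the recursion, the closed one-forms theta_k,
the extension by zero of the wedge product
-/

open scoped ContDiff Topology
open Finset Function Filter

namespace Vale.Agent.P273.H973

noncomputable section

variable {X X' H : Type*} [NormedAddCommGroup X] [NormedSpace ℝ X]
  [NormedAddCommGroup X'] [NormedSpace ℝ X'] [NormedAddCommGroup H] [NormedSpace ℝ H]

/-! ## Smoothness of the recursion -/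

theorem contDiffAt_stp {c : ℕ → X → ℝ} {ψ G : ℕ → X → H} {k : ℕ} {x : X} {m : WithTop ℕ∞}
    (hc : ∀ l < k, ContDiffAt ℝ m (c l) x) (hψ : ∀ l < k, ContDiffAt ℝ m (ψ l) x)
    (hG : ∀ l < k, ContDiffAt ℝ m (G l) x) :
    ContDiffAt ℝ m (fun z => stp (fun l => c l z) (fun l => ψ l z) (fun l => G l z) k) x := by
  induction k with
  | zero => exact contDiffAt_const
  | succ k ih =>
    have h := ih (fun l hl => hc l (by omega)) (fun l hl => hψ l (by omega))
      (fun l hl => hG l (by omega))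
    exact ((contDiffAt_const.sub (hc k (by omega))).smul h).add
      (((hc k (by omega)).smul (hG k (by omega))).sub (hψ k (by omega)))

theorem contDiffAt_gk {c : ℕ → ℕ → X → ℝ} {ψ : ℕ → ℕ → X → H} {n : ℕ} {x : X} {m : WithTop ℕ∞}
    (h : ∀ k < n, (∀ᶠ z in 𝓝 x, gk (fun k l => c k l z) (fun k l => ψ k l z) k = 0) ∨
      ∀ l < k, ContDiffAt ℝ m (c k l) x ∧ ContDiffAt ℝ m (ψ k l) x) :
    ∀ k < n, ContDiffAt ℝ m (fun z => gk (fun k l => c k l z) (fun k l => ψ k l z) k) x := by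
  intro k
  induction k using Nat.strong_induction_on with
  | _ k ih =>
    intro hk
    rcases h k hk with h0 | h1
    · exact (contDiffAt_const (c := (0 : H))).congr_of_eventuallyEq h0
    · have := contDiffAt_stp (c := c k) (ψ := ψ k)
        (G := fun l z => gk (fun k l => c k l z) (fun k l => ψ k l z) l) (k := k) (x := x) (m := m)
        (fun l hl => (h1 l hl).1) (fun l hl => (h1 l hl).2) (fun l hl => ih l hl (by omega))
      refine this.congr_of_eventuallyEq (Eventually.of_forall fun z => ?_)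
      exact gk_eq _ _ _

section FinRec

variable {n : ℕ}

/-- the function g_k for a table of functions -/
def gfun (c : Fin n → Fin n → X → ℝ) (ψ : Fin n → Fin n → X → H) (k : Fin n) (z : X) : H :=
  gf (fun k l => c k l z) (fun k l => ψ k l z) k

omit [NormedAddCommGroup X] [NormedSpace ℝ X] in
theorem ex_fun {α : Type*} (a : α) (c : Fin n → Fin n → X → α) (z : X) :
    ex a (fun k l => c k l z) = fun k l => ex (fun _ => a) c k l z := by
  funext k l
  unfold ex
  split_ifs <;> rfl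

theorem gfun_eq (c : Fin n → Fin n → X → ℝ) (ψ : Fin n → Fin n → X → H) (k : Fin n) (z : X) :
    gfun c ψ k z = gk (fun k l => ex (fun _ => 0) c k l z) (fun k l => ex (fun _ => 0) ψ k l z)
      k := by
  rw [gfun, gf, ex_fun, ex_fun]

/-- SMOOTHNESS of g_k: for every index either the recursion is trivial near the point or the
entries of its line are smooth at the point. -/
theorem contDiffAt_gfun {c : Fin n → Fin n → X → ℝ} {ψ : Fin n → Fin n → X → H} {x : X}
    {m : WithTop ℕ∞}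
    (h : ∀ k, (∀ᶠ z in 𝓝 x, gfun c ψ k z = 0) ∨
      ∀ l, l < k → ContDiffAt ℝ m (c k l) x ∧ ContDiffAt ℝ m (ψ k l) x) (k : Fin n) :
    ContDiffAt ℝ m (gfun c ψ k) x := by
  have key := contDiffAt_gk (c := ex (fun _ => 0) c) (ψ := ex (fun _ => 0) ψ) (n := n) (x := x)
    (m := m) (fun k hk => by
      rcases h ⟨k, hk⟩ with h0 | h1
      · left
        filter_upwards [h0] with z hz
        rw [gfun_eq] at hz
        exact hz
      · right
        intro l hl
        rw [ex_apply _ _ hk (lt_trans hl hk), ex_apply _ _ hk (lt_trans hl hk)]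
        exact h1 _ hl) k k.2
  refine key.congr_of_eventuallyEq (Eventually.of_forall fun z => ?_)
  exact gfun_eq _ _ _ _

omit [NormedSpace ℝ X] in
theorem gfun_region {c : Fin n → Fin n → X → ℝ} {ψ : Fin n → Fin n → X → H} {x : X}
    {V : Fin n → X → Prop} (h1 : ∀ᶠ z in 𝓝 x, ∀ k l, l < k → V k z → c k l z ≠ 0 → V l z)
    (h2 : ∀ᶠ z in 𝓝 x, ∀ k l, l < k → V k z → ψ k l z = 0) {k : Fin n}
    (hV : ∀ᶠ z in 𝓝 x, V k z) : ∀ᶠ z in 𝓝 x, gfun c ψ k z = 0 := by
  filter_upwards [h1, h2, hV] with z h1 h2 hV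
  exact gf_region (V := fun k => V k z) h1 h2 hV

/-! ## The closed one-forms -/

/-- theta_k = eta_k + d g_k -/
def theta (η : Fin n → X → X →L[ℝ] H) (c : Fin n → Fin n → X → ℝ) (ψ : Fin n → Fin n → X → H)
    (k : Fin n) (z : X) : X →L[ℝ] H := η k z + fderiv ℝ (gfun c ψ k) z

theorem contDiffAt_theta {η : Fin n → X → X →L[ℝ] H} {c : Fin n → Fin n → X → ℝ}
    {ψ : Fin n → Fin n → X → H} {k : Fin n} {x : X} {m m' : WithTop ℕ∞} (hm : m + 1 ≤ m')
    (hη : ContDiffAt ℝ m (η k) x) (hg : ContDiffAt ℝ m' (gfun c ψ k) x) :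
    ContDiffAt ℝ m (theta η c ψ k) x :=
  hη.add (hg.fderiv_right hm)

/-- symmetric derivative = closed one-form -/
def Sym1 (θ : X → X →L[ℝ] H) (x : X) : Prop := ∀ v w, fderiv ℝ θ x v w = fderiv ℝ θ x w v

theorem theta_symm {η : Fin n → X → X →L[ℝ] H} {c : Fin n → Fin n → X → ℝ}
    {ψ : Fin n → Fin n → X → H} {k : Fin n} {x : X} (hη : DifferentiableAt ℝ (η k) x)
    (hs : Sym1 (η k) x) (hg : ContDiffAt ℝ 2 (gfun c ψ k) x) : Sym1 (theta η c ψ k) x := by
  intro v w
  have h1 : DifferentiableAt ℝ (fderiv ℝ (gfun c ψ k)) x :=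
    (hg.fderiv_right (m := 1) le_rfl).differentiableAt one_ne_zero
  have h2 : IsSymmSndFDerivAt ℝ (gfun c ψ k) x := hg.isSymmSndFDerivAt (by simp)
  have h3 : fderiv ℝ (theta η c ψ k) x = fderiv ℝ (η k) x + fderiv ℝ (fderiv ℝ (gfun c ψ k)) x :=
    fderiv_add hη h1
  rw [h3]
  simp only [_root_.add_apply]
  rw [hs v w, h2 v w]

/-- COLLAPSE of the one-forms. -/
theorem theta_eq {η : Fin n → X → X →L[ℝ] H} {c : Fin n → Fin n → X → ℝ}
    {ψ : Fin n → Fin n → X → H} {k l : Fin n} {d : X → H} {x : X}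
    (h : ∀ᶠ z in 𝓝 x, gfun c ψ k z = gfun c ψ l z - d z)
    (hg : ∀ᶠ z in 𝓝 x, DifferentiableAt ℝ (gfun c ψ l) z)
    (hd : ∀ᶠ z in 𝓝 x, HasFDerivAt d (η k z - η l z) z) :
    ∀ᶠ z in 𝓝 x, theta η c ψ k z = theta η c ψ l z := by
  have h' := eventually_eventually_nhds.2 h
  filter_upwards [h', hg, hd] with z h hg hd
  have h1 : fderiv ℝ (gfun c ψ k) z = fderiv ℝ (gfun c ψ l) z - (η k z - η l z) := by
    have h2 : HasFDerivAt (fun z => gfun c ψ l z - d z)
        (fderiv ℝ (gfun c ψ l) z - (η k z - η l z)) z := hg.hasFDerivAt.sub hd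
    exact (h2.congr_of_eventuallyEq h).fderiv
  rw [theta, theta, h1]
  abel

/-- in a region where the recursion is trivial -/
theorem theta_region {η : Fin n → X → X →L[ℝ] H} {c : Fin n → Fin n → X → ℝ}
    {ψ : Fin n → Fin n → X → H} {k : Fin n} {x : X}
    (h : ∀ᶠ z in 𝓝 x, gfun c ψ k z = 0) : ∀ᶠ z in 𝓝 x, theta η c ψ k z = η k z := by
  have h' := eventually_eventually_nhds.2 h
  filter_upwards [h'] with z h
  have h1 : fderiv ℝ (gfun c ψ k) z = 0 := by
    have h2 : HasFDerivAt (fun _ : X => (0 : H)) (0 : X →L[ℝ] H) z := hasFDerivAt_const _ _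
    exact (h2.congr_of_eventuallyEq h).fderiv
  rw [theta, h1, add_zero]

/-- naturality under smooth maps (germ form) -/
theorem theta_comp {η : Fin n → X → X →L[ℝ] H} {c : Fin n → Fin n → X → ℝ}
    {ψ : Fin n → Fin n → X → H} {η' : Fin n → X' → X' →L[ℝ] H} {c' : Fin n → Fin n → X' → ℝ}
    {ψ' : Fin n → Fin n → X' → H} {φ : X' → X} {k : Fin n} {x : X'}
    (hc : ∀ᶠ z in 𝓝 x, ∀ j l, l < j → c' j l z = c j l (φ z))
    (hψ : ∀ᶠ z in 𝓝 x, ∀ j l, l < j → ψ' j l z = ψ j l (φ z))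
    (hη : η' k x = (η k (φ x)).comp (fderiv ℝ φ x))
    (hφ : DifferentiableAt ℝ φ x) (hg : DifferentiableAt ℝ (gfun c ψ k) (φ x)) :
    theta η' c' ψ' k x = (theta η c ψ k (φ x)).comp (fderiv ℝ φ x) := by
  have h1 : gfun c' ψ' k =ᶠ[𝓝 x] (gfun c ψ k) ∘ φ := by
    filter_upwards [hc, hψ] with z hc hψ
    exact gf_congr k hc hψ
  rw [theta, theta, hη, h1.fderiv_eq, fderiv_comp x hg hφ, ContinuousLinearMap.add_comp]

/-- linear maps between the coefficient spaces -/
theorem theta_map {H' : Type*} [NormedAddCommGroup H'] [NormedSpace ℝ H'] (A : H →L[ℝ] H')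
    {η : Fin n → X → X →L[ℝ] H} {c : Fin n → Fin n → X → ℝ}
    {ψ : Fin n → Fin n → X → H} {k : Fin n} {x : X} (hg : DifferentiableAt ℝ (gfun c ψ k) x) :
    theta (fun k z => A.comp (η k z)) c (fun k l z => A (ψ k l z)) k x =
      A.comp (theta η c ψ k x) := by
  have h1 : gfun c (fun k l z => A (ψ k l z)) k = A ∘ gfun c ψ k := by
    funext z
    exact (gf_map (A : H →ₗ[ℝ] H') _ _ k).symm
  have h2 : fderiv ℝ (gfun c (fun k l z => A (ψ k l z)) k) x = A.comp (fderiv ℝ (gfun c ψ k) x) := by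
    rw [h1]
    exact (A.hasFDerivAt.comp x hg.hasFDerivAt).fderiv
  rw [theta, theta, h2, ContinuousLinearMap.comp_add]

end FinRec

/-! ## The wedge product and its extension by zero -/

section Ext

variable {G : Type*} [NormedAddCommGroup G] [NormedSpace ℝ G] [FiniteDimensional ℝ X]
  [FiniteDimensional ℝ G] {p q : ℕ}

theorem contDiffAt_wedgeT {F : X → X [⋀^Fin p]→L[ℝ] ℝ}
    (T : ContinuousMultilinearMap ℝ (fun _ : Fin q => H) G)
    {θ : Fin q → X → X →L[ℝ] H} {x : X} {n : WithTop ℕ∞}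
    (hF : ContDiffAt ℝ n F x) (hθ : ∀ j, ContDiffAt ℝ n (θ j) x) :
    ContDiffAt ℝ n (fun y => wedgeT (F y) T (fun j => θ j y)) x := by
  rw [← contDiffWithinAt_univ]
  exact contDiffWithinAt_wedgeT T (contDiffWithinAt_univ.2 hF) fun j =>
    contDiffWithinAt_univ.2 (hθ j)

open Classical in
/-- the form F ∧ T(θ) off a set D, extended by 0 -/
def omega (F : X → X [⋀^Fin p]→L[ℝ] ℝ) (T : ContinuousMultilinearMap ℝ (fun _ : Fin q => H) G)
    (θ : Fin q → X → X →L[ℝ] H) (D : Set X) (z : X) : X [⋀^Fin (p + q)]→L[ℝ] G :=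
  if z ∈ D then 0 else wedgeT (F z) T (fun j => θ j z)

omit [FiniteDimensional ℝ X] [FiniteDimensional ℝ G] in
theorem omega_eventually_zero {F : X → X [⋀^Fin p]→L[ℝ] ℝ}
    {T : ContinuousMultilinearMap ℝ (fun _ : Fin q => H) G}
    {θ : Fin q → X → X →L[ℝ] H} {D : Set X} {x : X}
    (h : (∃ a b, a ≠ b ∧ SymAt T a b ∧ ∀ᶠ z in 𝓝 x, z ∉ D → θ a z = θ b z) ∨
      (∃ a, ∀ᶠ z in 𝓝 x, z ∉ D → θ a z = 0) ∨ (∀ᶠ z in 𝓝 x, z ∈ D)) :
    ∀ᶠ z in 𝓝 x, omega F T θ D z = 0 := by
  rcases h with ⟨a, b, hab, hT, h⟩ | ⟨a, h⟩ | h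
  · filter_upwards [h] with z hz
    unfold omega
    split_ifs with hD
    · rfl
    · exact wedgeT_eq_zero_of_eq (F z) hab hT (hz hD)
  · filter_upwards [h] with z hz
    unfold omega
    split_ifs with hD
    · rfl
    · exact wedgeT_eq_zero_of_zero (F z) T (a := a) (hz hD)
  · filter_upwards [h] with z hz
    rw [omega, if_pos hz]

/-- EXTENSION BY ZERO: at every point either everything is smooth and closed near the point
(which is not near D) or two theta of one type agree / one theta vanishes off D near the point. -/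
theorem omega_ext {F : X → X [⋀^Fin p]→L[ℝ] ℝ}
    {T : ContinuousMultilinearMap ℝ (fun _ : Fin q => H) G}
    {θ : Fin q → X → X →L[ℝ] H} {D : Set X} {x : X}
    (h : ((∀ᶠ z in 𝓝 x, z ∉ D) ∧ ContDiffAt ℝ ∞ F x ∧ extDeriv F x = 0 ∧
        ∀ j, ContDiffAt ℝ ∞ (θ j) x ∧ Sym1 (θ j) x) ∨
      ((∃ a b, a ≠ b ∧ SymAt T a b ∧ ∀ᶠ z in 𝓝 x, z ∉ D → θ a z = θ b z) ∨
      (∃ a, ∀ᶠ z in 𝓝 x, z ∉ D → θ a z = 0) ∨ (∀ᶠ z in 𝓝 x, z ∈ D))) :
    ContDiffAt ℝ ∞ (omega F T θ D) x ∧ extDeriv (omega F T θ D) x = 0 := by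
  rcases h with ⟨hD, hF, hF', hθ⟩ | h
  · have heq : omega F T θ D =ᶠ[𝓝 x] fun y => wedgeT (F y) T (fun j => θ j y) := by
      filter_upwards [hD] with z hz
      rw [omega, if_neg hz]
    refine ⟨(contDiffAt_wedgeT T hF fun j => (hθ j).1).congr_of_eventuallyEq heq, ?_⟩
    rw [heq.extDeriv_eq]
    exact extDeriv_wedgeT T (hF.differentiableAt (by simp))
      (fun j => (hθ j).1.differentiableAt (by simp)) hF' fun j v w => (hθ j).2 v w
  · have heq : omega F T θ D =ᶠ[𝓝 x] fun _ => (0 : X [⋀^Fin (p + q)]→L[ℝ] G) :=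
      omega_eventually_zero h
    refine ⟨contDiffAt_const.congr_of_eventuallyEq heq, ?_⟩
    rw [heq.extDeriv_eq]
    have h0 : extDeriv (fun _ : X => (0 : X [⋀^Fin (p + q)]→L[ℝ] G)) x = 0 := by
      ext v
      rw [extDeriv_apply (differentiableAt_const _)]
      simp
    exact h0

end Ext

end

end Vale.Agent.P273.H973
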