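import Vale.Agent.P273.H973.One
import Vale.Agent.P273.H578.Inst

/-!
# P273, row GAUGE-I (helper973): the definition of the gauge

Marks j : L = Fin 7 × Bool, chart S j, coordinates e : E = (roots, coordinates of the marks), sheets
v.  The recursion runs over the marks of one type t, in the order of Fin 7.
-/

noncomputable section

namespace Vale.Agent.P273.H973

open Set Filter H681 H95
open H578 (chiT psiT)
open scoped Topology ContDiff

/-- the coordinate x of the mark j (1/w in the chart at infinity) -/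
def Xp (S : L → Bool) (e : E) (j : L) : ℂ := if S j then (e.2 j)⁻¹ else e.2 j

/-- the sheet y of the mark j (v/w^3 in the chart at infinity) -/
def Yp (S : L → Bool) (e : E) (v : L → ℂ) (j : L) : ℂ :=
  if S j then v j * ((e.2 j)⁻¹) ^ 3 else v j

/-- the points of the seven marks of type t -/
def PP (S : L → Bool) (t : Bool) (e : E) (v : L → ℂ) (k : Fin 7) : ℂ × ℂ :=
  (Xp S e (k, t), Yp S e v (k, t))

/-- the mark (k,t) is not exactly at infinity -/
def fin (S : L → Bool) (t : Bool) (e : E) (k : Fin 7) : Prop :=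
  ¬ (S (k, t) = true ∧ e.2 (k, t) = 0)

/-- the branch of the sheets through v -/
def brE (S : L → Bool) (e : E) (v : L → ℂ) (e' : E) (j : L) : ℂ :=
  v j * (pol (S j) (rts e'.1) (e'.2 j) / pol (S j) (rts e.1) (e.2 j)) ^ (1 / 2 : ℂ)

/-- the one mark form in the chart x, in the shape of helper578 -/
def etx (O : One) (ξ : Fin 6 → ℝ) : (Fin 6 → ℂ) → ℂ → ℂ → ((Fin 6 → ℂ) × ℂ →L[ℝ] ℝ) :=
  fun b x y => O.η ξ false (b, x) y

/-- roots and coordinate of the mark j -/
def prj (j : L) : E →L[ℝ] E1 :=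
  (ContinuousLinearMap.fst ℝ C6 (L → ℂ)).prod
    ((ContinuousLinearMap.proj (R := ℝ) j).comp (ContinuousLinearMap.snd ℝ C6 (L → ℂ)))

@[simp] theorem prj_apply (j : L) (e : E) : prj j e = (e.1, e.2 j) := rfl

/-- the table of the cut-offs, along a branch V of the sheets -/
def cE (S : L → Bool) (t : Bool) (V : E → L → ℂ) (k l : Fin 7) (e : E) : ℝ :=
  chiT (fin S t e) e.1 (PP S t e (V e)) k l

/-- the table of the cut off differences, along a branch V of the sheets -/
def pE (O : One) (ξ : Fin 6 → ℝ) (S : L → Bool) (t : Bool) (V : E → L → ℂ) (k l : Fin 7)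
    (e : E) : ℝ :=
  psiT (etx O ξ) (fin S t e) e.1 (PP S t e (V e)) k l

/-- the one mark forms on E, along a branch V of the sheets -/
def etaE (O : One) (ξ : Fin 6 → ℝ) (S : L → Bool) (V : E → L → ℂ) (j : L) (e : E) : E →L[ℝ] ℝ :=
  (O.η ξ (S j) (prj j e) (V e j)).comp (prj j)

/-- the form of the mark j, along a branch V of the sheets -/
def thE (O : One) (ξ : Fin 6 → ℝ) (S : L → Bool) (V : E → L → ℂ) (j : L) : E → (E →L[ℝ] ℝ) :=
  theta (fun k e => etaE O ξ S V (k, j.2) e) (cE S j.2 V) (pE O ξ S j.2 V) j.1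

open scoped Classical in
/-- **the gauge** -/
def th (O : One) (j : L) (ξ : Fin 6 → ℝ) (S : L → Bool) (e : E) (v : L → ℂ) : E →L[ℝ] ℝ :=
  if e.1 ∈ XX ∧ OnC S (rts e.1) e.2 v then thE O ξ S (brE S e v) j e else 0

/-- V is a smooth branch of the sheets near e -/
structure BrE (S : L → Bool) (V : E → L → ℂ) (e : E) : Prop where
  mem : e.1 ∈ XX
  ev : ∀ᶠ e' in 𝓝 e, e'.1 ∈ XX ∧ OnC S (rts e'.1) e'.2 (V e') ∧
    ∀ j, ContDiffAt ℝ ∞ (fun e'' => V e'' j) e'

end Vale.Agent.P273.H973

end
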