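import Mathlib

/-!
# P273, block OMEGA (helper973): the form F ∧ T(θ_1,...,θ_q)

F an alternating p-form, θ_1,...,θ_q one-forms with values in a space H, T a multilinear
map on H^q with values in G.  wedgeT F T θ is the alternating (p+q)-form
w ↦ (p!)⁻¹ ∑_σ sign σ • F(w_σ1..w_σp) • T(θ_1 w_σ(p+1), ..., θ_q w_σ(p+q)).
-/

open scoped ContDiff Topology
open Finset Function

namespace Vale.Agent.P273.H973

noncomputable section

variable {E E' H H' G : Type*} [NormedAddCommGroup E] [NormedSpace ℝ E]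
  [NormedAddCommGroup E'] [NormedSpace ℝ E']
  [NormedAddCommGroup H] [NormedSpace ℝ H] [NormedAddCommGroup H'] [NormedSpace ℝ H']
  [NormedAddCommGroup G] [NormedSpace ℝ G]

/-! ## Alternating maps valued functions on finite dimensional spaces -/

section Alt

variable {ι : Type*} [Fintype ι] [FiniteDimensional ℝ E] [FiniteDimensional ℝ G]

theorem exists_evals (ι : Type*) [Fintype ι] (E G : Type*) [NormedAddCommGroup E]
    [NormedSpace ℝ E] [NormedAddCommGroup G] [NormedSpace ℝ G] [FiniteDimensional ℝ E]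
    [FiniteDimensional ℝ G] :
    ∃ (κ : Type) (_ : Fintype κ) (W : κ → ι → E) (R : (κ → G) →L[ℝ] E [⋀^ι]→L[ℝ] G),
      ∀ f : E [⋀^ι]→L[ℝ] G, R (fun k => f (W k)) = f := by
  classical
  let b := Module.finBasis ℝ E
  let κ' := ι → Fin (Module.finrank ℝ E)
  obtain ⟨n, ⟨e⟩⟩ := Finite.exists_equiv_fin κ'
  let W : Fin n → ι → E := fun k i => b (e.symm k i)
  let ev : (E [⋀^ι]→L[ℝ] G) →ₗ[ℝ] (Fin n → G) :=
    { toFun := fun f k => f (W k)
      map_add' := fun f g => rfl
      map_smul' := fun c f => rfl }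
  have hinj : Injective ev := by
    intro f g hfg
    apply ContinuousAlternatingMap.toAlternatingMap_injective
    apply b.ext_alternating
    intro v _
    have := congrFun hfg (e v)
    simpa [ev, W] using this
  obtain ⟨R, hR⟩ := LinearMap.exists_leftInverse_of_injective ev (LinearMap.ker_eq_bot.2 hinj)
  refine ⟨Fin n, inferInstance, W, LinearMap.toContinuousLinearMap R, fun f => ?_⟩
  exact LinearMap.congr_fun hR f

theorem contDiffWithinAt_alt {X : Type*} [NormedAddCommGroup X] [NormedSpace ℝ X]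
    {f : X → E [⋀^ι]→L[ℝ] G} {s : Set X} {x : X} {n : WithTop ℕ∞}
    (h : ∀ w, ContDiffWithinAt ℝ n (fun y => f y w) s x) : ContDiffWithinAt ℝ n f s x := by
  obtain ⟨κ, hκ, W, R, hR⟩ := exists_evals ι E G
  have h1 : ContDiffWithinAt ℝ n (fun y => fun k : κ => f y (W k)) s x :=
    contDiffWithinAt_pi.2 fun k => h (W k)
  have h2 := R.contDiff.comp_contDiffWithinAt h1
  simpa [Function.comp_def, hR] using h2

theorem contDiffAt_alt {X : Type*} [NormedAddCommGroup X] [NormedSpace ℝ X]
    {f : X → E [⋀^ι]→L[ℝ] G} {x : X} {n : WithTop ℕ∞}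
    (h : ∀ w, ContDiffAt ℝ n (fun y => f y w) x) : ContDiffAt ℝ n f x := by
  rw [← contDiffWithinAt_univ]
  exact contDiffWithinAt_alt fun w => (contDiffWithinAt_univ).2 (h w)

theorem differentiableAt_alt {X : Type*} [NormedAddCommGroup X] [NormedSpace ℝ X]
    {f : X → E [⋀^ι]→L[ℝ] G} {x : X}
    (h : ∀ w, DifferentiableAt ℝ (fun y => f y w) x) : DifferentiableAt ℝ f x := by
  obtain ⟨κ, hκ, W, R, hR⟩ := exists_evals ι E G
  have h1 : DifferentiableAt ℝ (fun y => fun k : κ => f y (W k)) x :=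
    differentiableAt_pi.2 fun k => h (W k)
  have h2 := R.differentiableAt.comp x h1
  simpa [Function.comp_def, hR] using h2

end Alt

/-! ## The form -/

/-- (w_1,...,w_(p+q)) ↦ F(w_1..w_p) • T(θ_1 w_(p+1), ..., θ_q w_(p+q)) -/
def pre {p q : ℕ} (F : E [⋀^Fin p]→L[ℝ] ℝ) (T : ContinuousMultilinearMap ℝ (fun _ : Fin q => H) G)
    (θ : Fin q → E →L[ℝ] H) : ContinuousMultilinearMap ℝ (fun _ : Fin (p + q) => E) G where
  toFun w := F (fun i => w (Fin.castAdd q i)) • T (fun j => θ j (w (Fin.natAdd p j)))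
  map_update_add' := by
    intro _ w i x y
    have hcast : ∀ (a : Fin p) (z : E), (fun i => update w (Fin.castAdd q a) z (Fin.castAdd q i))
        = update (fun i => w (Fin.castAdd q i)) a z := by
      intro a z; funext i
      by_cases h : i = a
      · subst h; simp
      · have : Fin.castAdd q i ≠ Fin.castAdd q a := fun h' => h (Fin.castAdd_injective p q h')
        simp [update_of_ne h, update_of_ne this]
    have hcast' : ∀ (a : Fin p) (z : E), (fun j => θ j (update w (Fin.castAdd q a) z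
        (Fin.natAdd p j))) = fun j => θ j (w (Fin.natAdd p j)) := by
      intro a z; funext j
      have : Fin.natAdd p j ≠ Fin.castAdd q a := by
        intro h; have := congrArg Fin.val h; simp at this; omega
      simp [update_of_ne this]
    have hnat : ∀ (a : Fin q) (z : E), (fun i => update w (Fin.natAdd p a) z (Fin.castAdd q i))
        = fun i => w (Fin.castAdd q i) := by
      intro a z; funext i
      have : Fin.castAdd q i ≠ Fin.natAdd p a := by
        intro h; have := congrArg Fin.val h; simp at this; omega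
      simp [update_of_ne this]
    have hnat' : ∀ (a : Fin q) (z : E), (fun j => θ j (update w (Fin.natAdd p a) z
        (Fin.natAdd p j))) = update (fun j => θ j (w (Fin.natAdd p j))) a (θ a z) := by
      intro a z; funext j
      by_cases h : j = a
      · subst h; simp
      · have : Fin.natAdd p j ≠ Fin.natAdd p a := fun h' => h (Fin.natAdd_injective q p h')
        simp [update_of_ne h, update_of_ne this]
    induction i using Fin.addCases with
    | left a => rw [hcast, hcast, hcast, hcast', hcast', hcast', F.map_update_add, add_smul]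
    | right a => rw [hnat, hnat, hnat, hnat', hnat', hnat', map_add, T.map_update_add, smul_add]
  map_update_smul' := by
    intro _ w i c x
    have hcast : ∀ (a : Fin p) (z : E), (fun i => update w (Fin.castAdd q a) z (Fin.castAdd q i))
        = update (fun i => w (Fin.castAdd q i)) a z := by
      intro a z; funext i
      by_cases h : i = a
      · subst h; simp
      · have : Fin.castAdd q i ≠ Fin.castAdd q a := fun h' => h (Fin.castAdd_injective p q h')
        simp [update_of_ne h, update_of_ne this]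
    have hcast' : ∀ (a : Fin p) (z : E), (fun j => θ j (update w (Fin.castAdd q a) z
        (Fin.natAdd p j))) = fun j => θ j (w (Fin.natAdd p j)) := by
      intro a z; funext j
      have : Fin.natAdd p j ≠ Fin.castAdd q a := by
        intro h; have := congrArg Fin.val h; simp at this; omega
      simp [update_of_ne this]
    have hnat : ∀ (a : Fin q) (z : E), (fun i => update w (Fin.natAdd p a) z (Fin.castAdd q i))
        = fun i => w (Fin.castAdd q i) := by
      intro a z; funext i
      have : Fin.castAdd q i ≠ Fin.natAdd p a := by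
        intro h; have := congrArg Fin.val h; simp at this; omega
      simp [update_of_ne this]
    have hnat' : ∀ (a : Fin q) (z : E), (fun j => θ j (update w (Fin.natAdd p a) z
        (Fin.natAdd p j))) = update (fun j => θ j (w (Fin.natAdd p j))) a (θ a z) := by
      intro a z; funext j
      by_cases h : j = a
      · subst h; simp
      · have : Fin.natAdd p j ≠ Fin.natAdd p a := fun h' => h (Fin.natAdd_injective q p h')
        simp [update_of_ne h, update_of_ne this]
    induction i using Fin.addCases with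
    | left a => rw [hcast, hcast, hcast', hcast', F.map_update_smul, smul_assoc]
    | right a => rw [hnat, hnat, hnat', hnat', map_smul, T.map_update_smul, smul_comm]
  cont := by
    apply Continuous.smul
    · exact F.cont.comp (by fun_prop)
    · exact T.cont.comp (by fun_prop)

@[simp] theorem pre_apply {p q : ℕ} (F : E [⋀^Fin p]→L[ℝ] ℝ)
    (T : ContinuousMultilinearMap ℝ (fun _ : Fin q => H) G) (θ : Fin q → E →L[ℝ] H)
    (w : Fin (p + q) → E) : pre F T θ w =
      F (fun i => w (Fin.castAdd q i)) • T (fun j => θ j (w (Fin.natAdd p j))) := rfl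

/-- The alternating form F ∧ T(θ_1,...,θ_q). -/
def wedgeT {p q : ℕ} (F : E [⋀^Fin p]→L[ℝ] ℝ)
    (T : ContinuousMultilinearMap ℝ (fun _ : Fin q => H) G) (θ : Fin q → E →L[ℝ] H) :
    E [⋀^Fin (p + q)]→L[ℝ] G :=
  ((p.factorial : ℝ)⁻¹) • ContinuousMultilinearMap.alternatization (pre F T θ)

theorem wedgeT_apply {p q : ℕ} (F : E [⋀^Fin p]→L[ℝ] ℝ)
    (T : ContinuousMultilinearMap ℝ (fun _ : Fin q => H) G) (θ : Fin q → E →L[ℝ] H)
    (w : Fin (p + q) → E) : wedgeT F T θ w = ((p.factorial : ℝ)⁻¹) •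
      ∑ σ : Equiv.Perm (Fin (p + q)), Equiv.Perm.sign σ •
        (F (fun i => w (σ (Fin.castAdd q i))) • T (fun j => θ j (w (σ (Fin.natAdd p j))))) := by
  rw [wedgeT, ContinuousAlternatingMap.smul_apply,
    ContinuousMultilinearMap.alternatization_apply_apply]
  rfl

theorem zero_of_eq_neg {x : G} (h : x = -x) : x = 0 := by
  have h2 : (2 : ℝ) • x = 0 := by
    rw [two_smul]
    nth_rewrite 2 [h]
    exact add_neg_cancel x
  exact (smul_eq_zero.1 h2).resolve_left two_ne_zero

/-- Symmetry of T in the slots a, b. -/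
def SymAt {q : ℕ} (T : ContinuousMultilinearMap ℝ (fun _ : Fin q => H) G) (a b : Fin q) : Prop :=
  ∀ v : Fin q → H, T (fun j => v (Equiv.swap a b j)) = T v

/-- two equal one-forms in slots in which T is symmetric kill the form -/
theorem wedgeT_eq_zero_of_eq {p q : ℕ} (F : E [⋀^Fin p]→L[ℝ] ℝ)
    {T : ContinuousMultilinearMap ℝ (fun _ : Fin q => H) G} {θ : Fin q → E →L[ℝ] H}
    {a b : Fin q} (hab : a ≠ b) (hT : SymAt T a b) (hθ : θ a = θ b) : wedgeT F T θ = 0 := by
  ext w
  rw [wedgeT_apply]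
  change _ = (0 : G)
  have key : (∑ σ : Equiv.Perm (Fin (p + q)), Equiv.Perm.sign σ •
        (F (fun i => w (σ (Fin.castAdd q i))) • T (fun j => θ j (w (σ (Fin.natAdd p j)))))) =
      - ∑ σ : Equiv.Perm (Fin (p + q)), Equiv.Perm.sign σ •
        (F (fun i => w (σ (Fin.castAdd q i))) • T (fun j => θ j (w (σ (Fin.natAdd p j))))) := by
    rw [← Finset.sum_neg_distrib]
    refine Fintype.sum_equiv (Equiv.mulRight (Equiv.swap (Fin.natAdd p a) (Fin.natAdd p b))) _ _ ?_
    intro σ
    have hne : Fin.natAdd p a ≠ Fin.natAdd p b := fun h => hab (Fin.natAdd_injective q p h)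
    have h1 : ∀ i : Fin p, Equiv.swap (Fin.natAdd p a) (Fin.natAdd p b) (Fin.castAdd q i)
        = Fin.castAdd q i := by
      intro i
      apply Equiv.swap_apply_of_ne_of_ne
      · intro h; have := congrArg Fin.val h; simp at this; omega
      · intro h; have := congrArg Fin.val h; simp at this; omega
    have h2 : ∀ j : Fin q, Equiv.swap (Fin.natAdd p a) (Fin.natAdd p b) (Fin.natAdd p j)
        = Fin.natAdd p (Equiv.swap a b j) := by
      intro j
      rcases eq_or_ne j a with rfl | hja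
      · simp
      rcases eq_or_ne j b with rfl | hjb
      · simp
      rw [Equiv.swap_apply_of_ne_of_ne hja hjb]
      apply Equiv.swap_apply_of_ne_of_ne
      · intro h; exact hja (Fin.natAdd_injective q p h)
      · intro h; exact hjb (Fin.natAdd_injective q p h)
    have h3 : T (fun j => θ j (w (σ (Fin.natAdd p (Equiv.swap a b j)))))
        = T (fun j => θ j (w (σ (Fin.natAdd p j)))) := by
      rw [← hT (fun j => θ j (w (σ (Fin.natAdd p j))))]
      congr 1
      funext j
      rcases eq_or_ne j a with rfl | hja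
      · simp [hθ]
      rcases eq_or_ne j b with rfl | hjb
      · simp [hθ]
      rw [Equiv.swap_apply_of_ne_of_ne hja hjb]
    simp only [Equiv.coe_mulRight, Equiv.Perm.mul_apply, h1, h2, Equiv.Perm.sign_mul,
      Equiv.Perm.sign_swap hne, h3]
    simp
  have h0 : (∑ σ : Equiv.Perm (Fin (p + q)), Equiv.Perm.sign σ •
        (F (fun i => w (σ (Fin.castAdd q i))) • T (fun j => θ j (w (σ (Fin.natAdd p j)))))) = 0 :=
    zero_of_eq_neg key
  rw [h0, smul_zero]

theorem wedgeT_eq_zero_of_zero {p q : ℕ} (F : E [⋀^Fin p]→L[ℝ] ℝ)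
    (T : ContinuousMultilinearMap ℝ (fun _ : Fin q => H) G) {θ : Fin q → E →L[ℝ] H}
    {a : Fin q} (hθ : θ a = 0) : wedgeT F T θ = 0 := by
  ext w
  rw [wedgeT_apply, Finset.sum_eq_zero, smul_zero]
  · rfl
  intro σ _
  have : T (fun j => θ j (w (σ (Fin.natAdd p j)))) = 0 := T.map_coord_zero a (by simp [hθ])
  rw [this, smul_zero, smul_zero]

@[simp] theorem wedgeT_zero {p q : ℕ}
    (T : ContinuousMultilinearMap ℝ (fun _ : Fin q => H) G) (θ : Fin q → E →L[ℝ] H) :
    wedgeT (0 : E [⋀^Fin p]→L[ℝ] ℝ) T θ = 0 := by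
  ext w; simp [wedgeT_apply]

theorem wedgeT_add {p q : ℕ} (F F' : E [⋀^Fin p]→L[ℝ] ℝ)
    (T : ContinuousMultilinearMap ℝ (fun _ : Fin q => H) G) (θ : Fin q → E →L[ℝ] H) :
    wedgeT (F + F') T θ = wedgeT F T θ + wedgeT F' T θ := by
  ext w
  simp only [wedgeT_apply, ContinuousAlternatingMap.add_apply, add_smul, smul_add,
    Finset.sum_add_distrib]

theorem wedgeT_smul {p q : ℕ} (c : ℝ) (F : E [⋀^Fin p]→L[ℝ] ℝ)
    (T : ContinuousMultilinearMap ℝ (fun _ : Fin q => H) G) (θ : Fin q → E →L[ℝ] H) :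
    wedgeT (c • F) T θ = c • wedgeT F T θ := by
  ext w
  simp only [wedgeT_apply, ContinuousAlternatingMap.smul_apply, Finset.smul_sum]
  refine Finset.sum_congr rfl fun σ _ => ?_
  rw [smul_assoc, smul_comm (Equiv.Perm.sign σ) c, smul_comm ((p.factorial : ℝ)⁻¹) c]

theorem wedgeT_addT {p q : ℕ} (F : E [⋀^Fin p]→L[ℝ] ℝ)
    (T T' : ContinuousMultilinearMap ℝ (fun _ : Fin q => H) G) (θ : Fin q → E →L[ℝ] H) :
    wedgeT F (T + T') θ = wedgeT F T θ + wedgeT F T' θ := by
  ext w
  simp only [wedgeT_apply, ContinuousAlternatingMap.add_apply, _root_.add_apply,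
    smul_add, Finset.sum_add_distrib]

theorem wedgeT_smulT {p q : ℕ} (c : ℝ) (F : E [⋀^Fin p]→L[ℝ] ℝ)
    (T : ContinuousMultilinearMap ℝ (fun _ : Fin q => H) G) (θ : Fin q → E →L[ℝ] H) :
    wedgeT F (c • T) θ = c • wedgeT F T θ := by
  ext w
  simp only [wedgeT_apply, ContinuousAlternatingMap.smul_apply, _root_.smul_apply,
    Finset.smul_sum]
  refine Finset.sum_congr rfl fun σ _ => ?_
  rw [smul_comm _ c, smul_comm (Equiv.Perm.sign σ) c, smul_comm ((p.factorial : ℝ)⁻¹) c]

/-- naturality under a linear map of the source -/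
theorem wedgeT_comp {p q : ℕ} (F : E [⋀^Fin p]→L[ℝ] ℝ)
    (T : ContinuousMultilinearMap ℝ (fun _ : Fin q => H) G) (θ : Fin q → E →L[ℝ] H)
    (L : E' →L[ℝ] E) : (wedgeT F T θ).compContinuousLinearMap L =
      wedgeT (F.compContinuousLinearMap L) T (fun j => (θ j).comp L) := by
  ext w
  simp only [wedgeT_apply, ContinuousAlternatingMap.compContinuousLinearMap_apply,
    Function.comp_def, ContinuousLinearMap.comp_apply]

/-- naturality in H: T ∘ g against θ is T against g ∘ θ -/
theorem wedgeT_compT {p q : ℕ} (F : E [⋀^Fin p]→L[ℝ] ℝ)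
    (T : ContinuousMultilinearMap ℝ (fun _ : Fin q => H') G) (g : H →L[ℝ] H')
    (θ : Fin q → E →L[ℝ] H) :
    wedgeT F (T.compContinuousLinearMap fun _ => g) θ = wedgeT F T (fun j => g.comp (θ j)) := by
  ext w
  simp only [wedgeT_apply, ContinuousMultilinearMap.compContinuousLinearMap_apply,
    ContinuousLinearMap.comp_apply]

/-- naturality in G -/
theorem wedgeT_compG {G' : Type*} [NormedAddCommGroup G'] [NormedSpace ℝ G'] {p q : ℕ}
    (F : E [⋀^Fin p]→L[ℝ] ℝ)
    (T : ContinuousMultilinearMap ℝ (fun _ : Fin q => H) G) (g : G →L[ℝ] G')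
    (θ : Fin q → E →L[ℝ] H) (w : Fin (p + q) → E) :
    wedgeT F (g.compContinuousMultilinearMap T) θ w = g (wedgeT F T θ w) := by
  simp only [wedgeT_apply, ContinuousLinearMap.compContinuousMultilinearMap_coe,
    Function.comp_apply, map_smul, map_sum]
  congr 1
  refine Finset.sum_congr rfl fun σ _ => ?_
  rcases Int.units_eq_one_or (Equiv.Perm.sign σ) with h | h <;> simp [h]

/-! ## Smoothness -/

section Smooth

variable [FiniteDimensional ℝ E] [FiniteDimensional ℝ G]

theorem contDiffWithinAt_wedgeT {X : Type*} [NormedAddCommGroup X] [NormedSpace ℝ X] {p q : ℕ}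
    {F : X → E [⋀^Fin p]→L[ℝ] ℝ} (T : ContinuousMultilinearMap ℝ (fun _ : Fin q => H) G)
    {θ : Fin q → X → E →L[ℝ] H} {s : Set X} {x : X} {n : WithTop ℕ∞}
    (hF : ContDiffWithinAt ℝ n F s x) (hθ : ∀ j, ContDiffWithinAt ℝ n (θ j) s x) :
    ContDiffWithinAt ℝ n (fun y => wedgeT (F y) T (fun j => θ j y)) s x := by
  apply contDiffWithinAt_alt
  intro w
  simp only [wedgeT_apply]
  apply ContDiffWithinAt.const_smul
  apply ContDiffWithinAt.sum
  intro σ _
  have h1 : ContDiffWithinAt ℝ n (fun y => F y (fun i => w (σ (Fin.castAdd q i)))) s x := by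
    obtain ⟨R, hR⟩ : ∃ R : (E [⋀^Fin p]→L[ℝ] ℝ) →L[ℝ] ℝ,
        ∀ f, R f = f (fun i => w (σ (Fin.castAdd q i))) :=
      ⟨ContinuousAlternatingMap.apply ℝ E ℝ (fun i => w (σ (Fin.castAdd q i))), fun f => rfl⟩
    have := R.contDiff.comp_contDiffWithinAt hF
    simpa [Function.comp_def, hR] using this
  have h2 : ContDiffWithinAt ℝ n (fun y => T (fun j => θ j y (w (σ (Fin.natAdd p j))))) s x := by
    have h3 : ContDiffWithinAt ℝ n (fun y => fun j : Fin q =>
        θ j y (w (σ (Fin.natAdd p j)))) s x :=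
      contDiffWithinAt_pi.2 fun j => (hθ j).clm_apply contDiffWithinAt_const
    exact T.contDiff.comp_contDiffWithinAt h3
  have h4 : ContDiffWithinAt ℝ n (fun y => F y (fun i => w (σ (Fin.castAdd q i))) •
      T (fun j => θ j y (w (σ (Fin.natAdd p j))))) s x := h1.smul h2
  rcases Int.units_eq_one_or (Equiv.Perm.sign σ) with h | h
  · simpa [h] using h4
  · simpa [h] using h4.neg

end Smooth

/-! ## Closedness -/

section Perm

/-- the permutation 0 ↦ i, j.succ ↦ i.succAbove (σ j) -/
def cons {n : ℕ} (a : Fin (n + 1) × Equiv.Perm (Fin n)) : Equiv.Perm (Fin (n + 1)) :=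
  a.1.cycleRange.symm * Equiv.Perm.decomposeFin.symm (0, a.2)

theorem cons_zero {n : ℕ} (a : Fin (n + 1) × Equiv.Perm (Fin n)) : cons a 0 = a.1 := by
  simp [cons]

theorem cons_succ {n : ℕ} (a : Fin (n + 1) × Equiv.Perm (Fin n)) (j : Fin n) :
    cons a j.succ = a.1.succAbove (a.2 j) := by
  simp [cons]

theorem sign_cons {n : ℕ} (a : Fin (n + 1) × Equiv.Perm (Fin n)) :
    Equiv.Perm.sign (cons a) = (-1) ^ (a.1 : ℕ) * Equiv.Perm.sign a.2 := by
  simp [cons]

theorem cons_bijective (n : ℕ) : Bijective (cons (n := n)) := by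
  rw [Fintype.bijective_iff_injective_and_card]
  refine ⟨?_, ?_⟩
  · rintro ⟨i, σ⟩ ⟨i', σ'⟩ h
    have h0 : i = i' := by
      have := congrArg (fun e : Equiv.Perm (Fin (n + 1)) => e 0) h
      simpa [cons_zero] using this
    subst h0
    have : σ = σ' := by
      ext j
      have h1 := congrArg (fun e : Equiv.Perm (Fin (n + 1)) => e j.succ) h
      simp only [cons_succ] at h1
      exact congrArg Fin.val (Fin.succAbove_right_injective h1)
    rw [this]
  · simp [Fintype.card_perm, Nat.factorial_succ]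

omit [NormedSpace ℝ G] in
theorem sum_cons {n : ℕ} (Φ : Equiv.Perm (Fin (n + 1)) → G) :
    ∑ i : Fin (n + 1), ∑ σ : Equiv.Perm (Fin n), Φ (cons (i, σ)) = ∑ τ, Φ τ := by
  rw [← Fintype.sum_prod_type' (f := fun i σ => Φ (cons (i, σ)))]
  exact (cons_bijective n).sum_comp Φ

end Perm

section Closed

variable {p q : ℕ}

theorem sum_swap_eq_zero {n : ℕ} {a b : Fin n} (hab : a ≠ b) (Ψ : Equiv.Perm (Fin n) → G)
    (h : ∀ τ, Ψ (τ * Equiv.swap a b) = Ψ τ) : ∑ τ, Equiv.Perm.sign τ • Ψ τ = 0 := by
  apply zero_of_eq_neg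
  rw [← Finset.sum_neg_distrib]
  refine Fintype.sum_equiv (Equiv.mulRight (Equiv.swap a b)) _ _ ?_
  intro τ
  simp only [Equiv.coe_mulRight, h, Equiv.Perm.sign_mul, Equiv.Perm.sign_swap hab]
  simp

/-- the first p+1 places of Fin (p+q+1) -/
def emb (p q : ℕ) : Fin (p + 1) ↪ Fin (p + q + 1) :=
  ⟨fun i => ⟨i, by omega⟩, fun i j h => by
    apply Fin.ext; simpa using congrArg Fin.val h⟩

theorem emb_val (i : Fin (p + 1)) : (emb p q i : ℕ) = i := rfl

theorem emb_zero : emb p q 0 = 0 := rfl

theorem emb_succ (k : Fin p) : emb p q k.succ = (Fin.castAdd q k).succ := by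
  apply Fin.ext; simp [emb_val]

theorem nat_notMem_emb (j : Fin q) : (Fin.natAdd p j).succ ∉ Set.range (emb p q) := by
  rintro ⟨i, hi⟩
  have h1 := congrArg Fin.val hi
  rw [emb_val] at h1
  simp at h1
  omega

theorem sum_D1_eq_zero (D : E →L[ℝ] E [⋀^Fin p]→L[ℝ] ℝ)
    (hD : ContinuousAlternatingMap.alternatizeUncurryFin D = 0) (t : (Fin q → E) → G)
    (v : Fin (p + q + 1) → E) :
    ∑ τ : Equiv.Perm (Fin (p + q + 1)), Equiv.Perm.sign τ •
      (D (v (τ 0)) (fun i => v (τ (Fin.castAdd q i).succ)) •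
        t (fun j => v (τ (Fin.natAdd p j).succ))) = 0 := by
  set S := ∑ τ : Equiv.Perm (Fin (p + q + 1)), Equiv.Perm.sign τ •
      (D (v (τ 0)) (fun i => v (τ (Fin.castAdd q i).succ)) •
        t (fun j => v (τ (Fin.natAdd p j).succ))) with hS
  have h1 : ∀ i : Fin (p + 1), S = ∑ τ : Equiv.Perm (Fin (p + q + 1)), Equiv.Perm.sign τ •
      (((-1 : ℤ) ^ (i : ℕ) • D (v (τ (emb p q i))) (fun k => v (τ (emb p q (i.succAbove k))))) •
        t (fun j => v (τ (Fin.natAdd p j).succ))) := by
    intro i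
    rw [hS]
    symm
    let c : Equiv.Perm (Fin (p + 1)) := i.cycleRange.symm
    let cc : Equiv.Perm (Fin (p + q + 1)) := c.viaFintypeEmbedding (emb p q)
    have e0 : cc 0 = emb p q i := by
      rw [← emb_zero (p := p) (q := q)]
      change c.viaFintypeEmbedding (emb p q) (emb p q 0) = _
      rw [Equiv.Perm.viaFintypeEmbedding_apply_image]
      simp [c]
    have e1 : ∀ k : Fin p, cc (Fin.castAdd q k).succ = emb p q (i.succAbove k) := by
      intro k
      rw [← emb_succ]
      change c.viaFintypeEmbedding (emb p q) (emb p q k.succ) = _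
      rw [Equiv.Perm.viaFintypeEmbedding_apply_image]
      simp [c]
    have e2 : ∀ j : Fin q, cc (Fin.natAdd p j).succ = (Fin.natAdd p j).succ := by
      intro j
      exact Equiv.Perm.viaFintypeEmbedding_apply_notMem_range _ _ (nat_notMem_emb j)
    have e3 : Equiv.Perm.sign cc = (-1) ^ (i : ℕ) := by
      simp [cc, c]
    refine Fintype.sum_equiv (Equiv.mulRight cc) _ _ ?_
    intro τ
    simp only [Equiv.coe_mulRight, Equiv.Perm.mul_apply, e0, e1, e2, Equiv.Perm.sign_mul, e3]
    rcases Nat.even_or_odd (i : ℕ) with h | h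
    · simp [h.neg_one_pow]
    · simp [h.neg_one_pow]
  have h2 : ((p + 1 : ℕ) : ℝ) • S = 0 := by
    have h3 : ((p + 1 : ℕ) : ℝ) • S = ∑ i : Fin (p + 1), S := by
      rw [Finset.sum_const, Finset.card_univ, Fintype.card_fin, Nat.cast_smul_eq_nsmul]
    rw [h3, Finset.sum_congr rfl fun i _ => h1 i, Finset.sum_comm]
    apply Finset.sum_eq_zero
    intro τ _
    rw [← Finset.smul_sum, ← Finset.sum_smul]
    have h4 := ContinuousAlternatingMap.alternatizeUncurryFin_apply D
      (fun i => v (τ (emb p q i)))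
    rw [hD] at h4
    have h5 : (∑ i : Fin (p + 1), ((-1 : ℤ) ^ (i : ℕ) • D (v (τ (emb p q i)))
        (fun k => v (τ (emb p q (i.succAbove k)))))) = 0 := by
      rw [← show (0 : E [⋀^Fin (p + 1)]→L[ℝ] ℝ) (fun i => v (τ (emb p q i))) = 0 from rfl, h4]
      refine Finset.sum_congr rfl fun i _ => ?_
      rfl
    rw [h5, zero_smul, smul_zero]
  exact (smul_eq_zero.1 h2).resolve_left (by positivity)

variable [FiniteDimensional ℝ E] [FiniteDimensional ℝ G]

theorem hasFDerivAt_wedgeT_apply {F : E → E [⋀^Fin p]→L[ℝ] ℝ}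
    (T : ContinuousMultilinearMap ℝ (fun _ : Fin q => H) G)
    {θ : Fin q → E → E →L[ℝ] H} {x : E} (hF : DifferentiableAt ℝ F x)
    (hθ : ∀ j, DifferentiableAt ℝ (θ j) x) (w : Fin (p + q) → E) :
    DifferentiableAt ℝ (fun y => wedgeT (F y) T (fun j => θ j y) w) x ∧ ∀ u,
      fderiv ℝ (fun y => wedgeT (F y) T (fun j => θ j y) w) x u = ((p.factorial : ℝ)⁻¹) •
      ∑ σ : Equiv.Perm (Fin (p + q)), Equiv.Perm.sign σ •
        (fderiv ℝ F x u (fun i => w (σ (Fin.castAdd q i))) •
            T (fun j => θ j x (w (σ (Fin.natAdd p j)))) +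
          F x (fun i => w (σ (Fin.castAdd q i))) • ∑ j : Fin q,
            T (update (fun j' => θ j' x (w (σ (Fin.natAdd p j')))) j
              (fderiv ℝ (θ j) x u (w (σ (Fin.natAdd p j)))))) := by
  have h1 : ∀ a : Fin p → E, HasFDerivAt (fun y => F y a)
      ((ContinuousAlternatingMap.apply ℝ E ℝ a).comp (fderiv ℝ F x)) x := fun a =>
    (ContinuousAlternatingMap.apply ℝ E ℝ a).hasFDerivAt.comp x hF.hasFDerivAt
  have h2 : ∀ b : Fin q → E, HasFDerivAt (fun y => T (fun j => θ j y (b j)))
      ((T.linearDeriv (fun j => θ j x (b j))).comp (ContinuousLinearMap.pi fun j =>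
        (fderiv ℝ (θ j) x).flip (b j))) x := by
    intro b
    have h3 : HasFDerivAt (fun y => fun j => θ j y (b j)) (ContinuousLinearMap.pi fun j =>
        (fderiv ℝ (θ j) x).flip (b j)) x := by
      apply hasFDerivAt_pi.2
      intro j
      have h4 := (hθ j).hasFDerivAt.clm_apply (hasFDerivAt_const (b j) x)
      refine h4.congr_fderiv ?_
      ext u
      simp
    exact (T.hasFDerivAt (fun j => θ j x (b j))).comp x h3
  have h5 : HasFDerivAt (fun y => wedgeT (F y) T (fun j => θ j y) w)
      (((p.factorial : ℝ)⁻¹) • ∑ σ : Equiv.Perm (Fin (p + q)), Equiv.Perm.sign σ •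
        (F x (fun i => w (σ (Fin.castAdd q i))) •
          ((T.linearDeriv (fun j => θ j x (w (σ (Fin.natAdd p j))))).comp
            (ContinuousLinearMap.pi fun j => (fderiv ℝ (θ j) x).flip (w (σ (Fin.natAdd p j))))) +
        ((ContinuousAlternatingMap.apply ℝ E ℝ (fun i => w (σ (Fin.castAdd q i)))).comp
          (fderiv ℝ F x)).smulRight (T (fun j => θ j x (w (σ (Fin.natAdd p j))))))) x := by
    simp only [wedgeT_apply]
    apply HasFDerivAt.const_smul
    apply HasFDerivAt.fun_sum
    intro σ _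
    have h6 := (h1 (fun i => w (σ (Fin.castAdd q i)))).smul (h2 fun j => w (σ (Fin.natAdd p j)))
    rcases Int.units_eq_one_or (Equiv.Perm.sign σ) with h | h
    · simp only [h, one_smul]; exact h6
    · simp only [h, Units.neg_smul, one_smul]; exact h6.neg
  refine ⟨h5.differentiableAt, fun u => ?_⟩
  rw [h5.fderiv]
  simp only [_root_.smul_apply, _root_.sum_apply, _root_.add_apply,
    ContinuousLinearMap.comp_apply, ContinuousMultilinearMap.linearDeriv_apply,
    ContinuousLinearMap.smulRight_apply, ContinuousLinearMap.coe_pi', ContinuousLinearMap.flip_apply]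
  congr 1
  refine Finset.sum_congr rfl fun σ _ => ?_
  congr 1
  exact add_comm _ _

theorem extDeriv_wedgeT {F : E → E [⋀^Fin p]→L[ℝ] ℝ}
    (T : ContinuousMultilinearMap ℝ (fun _ : Fin q => H) G)
    {θ : Fin q → E → E →L[ℝ] H} {x : E} (hF : DifferentiableAt ℝ F x)
    (hθ : ∀ j, DifferentiableAt ℝ (θ j) x) (hdF : extDeriv F x = 0)
    (hcl : ∀ j u v, fderiv ℝ (θ j) x u v = fderiv ℝ (θ j) x v u) :
    extDeriv (fun y => wedgeT (F y) T (fun j => θ j y)) x = 0 := by
  have hd : DifferentiableAt ℝ (fun y => wedgeT (F y) T (fun j => θ j y)) x :=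
    differentiableAt_alt fun w => (hasFDerivAt_wedgeT_apply T hF hθ w).1
  ext v
  rw [extDeriv_apply hd]
  change _ = (0 : G)
  have h1 : ∀ i : Fin (p + q + 1), (-1 : ℤ) ^ (i : ℕ) •
      fderiv ℝ (fun y => wedgeT (F y) T (fun j => θ j y) (i.removeNth v)) x (v i) =
      ((p.factorial : ℝ)⁻¹) • ∑ σ : Equiv.Perm (Fin (p + q)), Equiv.Perm.sign (cons (i, σ)) •
        (fderiv ℝ F x (v (cons (i, σ) 0)) (fun i' => v (cons (i, σ) (Fin.castAdd q i').succ)) •
            T (fun j => θ j x (v (cons (i, σ) (Fin.natAdd p j).succ))) +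
          F x (fun i' => v (cons (i, σ) (Fin.castAdd q i').succ)) • ∑ j : Fin q,
            T (update (fun j' => θ j' x (v (cons (i, σ) (Fin.natAdd p j').succ))) j
              (fderiv ℝ (θ j) x (v (cons (i, σ) 0)) (v (cons (i, σ) (Fin.natAdd p j).succ))))) := by
    intro i
    rw [(hasFDerivAt_wedgeT_apply T hF hθ _).2, smul_comm, Finset.smul_sum]
    congr 1
    refine Finset.sum_congr rfl fun σ _ => ?_
    simp only [cons_zero, cons_succ, sign_cons, Fin.removeNth_apply]
    rcases Nat.even_or_odd (i : ℕ) with h | h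
    · simp [h.neg_one_pow]
    · simp [h.neg_one_pow]
  have h2 : ∑ i : Fin (p + q + 1), (-1 : ℤ) ^ (i : ℕ) •
      fderiv ℝ (fun y => wedgeT (F y) T (fun j => θ j y) (i.removeNth v)) x (v i) =
      ((p.factorial : ℝ)⁻¹) • ∑ τ : Equiv.Perm (Fin (p + q + 1)), Equiv.Perm.sign τ •
        (fderiv ℝ F x (v (τ 0)) (fun i' => v (τ (Fin.castAdd q i').succ)) •
            T (fun j => θ j x (v (τ (Fin.natAdd p j).succ))) +
          F x (fun i' => v (τ (Fin.castAdd q i').succ)) • ∑ j : Fin q,
            T (update (fun j' => θ j' x (v (τ (Fin.natAdd p j').succ))) j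
              (fderiv ℝ (θ j) x (v (τ 0)) (v (τ (Fin.natAdd p j).succ))))) := by
    rw [Finset.sum_congr rfl fun i _ => h1 i, ← Finset.smul_sum]
    congr 1
    exact sum_cons (fun τ => Equiv.Perm.sign τ •
        (fderiv ℝ F x (v (τ 0)) (fun i' => v (τ (Fin.castAdd q i').succ)) •
            T (fun j => θ j x (v (τ (Fin.natAdd p j).succ))) +
          F x (fun i' => v (τ (Fin.castAdd q i').succ)) • ∑ j : Fin q,
            T (update (fun j' => θ j' x (v (τ (Fin.natAdd p j').succ))) j
              (fderiv ℝ (θ j) x (v (τ 0)) (v (τ (Fin.natAdd p j).succ))))))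
  refine h2.trans ?_
  simp only [smul_add, Finset.sum_add_distrib]
  have h3 := sum_D1_eq_zero (fderiv ℝ F x) hdF (fun b => T (fun j => θ j x (b j))) v
  have h4 : ∑ τ : Equiv.Perm (Fin (p + q + 1)), Equiv.Perm.sign τ •
        (F x (fun i' => v (τ (Fin.castAdd q i').succ)) • ∑ j : Fin q,
            T (update (fun j' => θ j' x (v (τ (Fin.natAdd p j').succ))) j
              (fderiv ℝ (θ j) x (v (τ 0)) (v (τ (Fin.natAdd p j).succ))))) = 0 := by
    simp only [Finset.smul_sum]
    rw [Finset.sum_comm]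
    apply Finset.sum_eq_zero
    intro j _
    refine sum_swap_eq_zero (a := 0) (b := (Fin.natAdd p j).succ) (Fin.succ_ne_zero _).symm _ ?_
    intro τ
    have e1 : ∀ i : Fin p, Equiv.swap 0 (Fin.natAdd p j).succ (Fin.castAdd q i).succ =
        (Fin.castAdd q i).succ := by
      intro i
      apply Equiv.swap_apply_of_ne_of_ne (Fin.succ_ne_zero _)
      intro h
      have := congrArg Fin.val h
      simp at this
      omega
    have e2 : ∀ j' : Fin q, j' ≠ j → Equiv.swap 0 (Fin.natAdd p j).succ (Fin.natAdd p j').succ =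
        (Fin.natAdd p j').succ := by
      intro j' hj
      apply Equiv.swap_apply_of_ne_of_ne (Fin.succ_ne_zero _)
      intro h
      exact hj (Fin.natAdd_injective q p (Fin.succ_injective _ h))
    simp only [Equiv.Perm.mul_apply, e1, Equiv.swap_apply_left, Equiv.swap_apply_right]
    congr 2
    funext j'
    rcases eq_or_ne j' j with rfl | hj
    · rw [update_self, update_self, hcl]
    · rw [update_of_ne hj, update_of_ne hj, e2 j' hj]
  rw [h3, h4]
  simp

end Closed

end

end Vale.Agent.P273.H973
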