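import Vale.Agent.P273.H973.One
import Vale.Agent.P273.H578.Delta

/-!
# P273, row GAUGE-I (helper973): the polynomial in the two charts, square roots of products
-/

noncomputable section

namespace Vale.Agent.P273.H973

open Set Filter H681 H95
open H578 (Pt fb)
open scoped Topology ContDiff

/-! ## The polynomial -/

theorem contDiff_fb : ContDiff ℝ ∞ (fun z : E1 => fb z.1 z.2) := by
  unfold H578.fb
  apply contDiff_prod
  intro i _
  have h1 : ContDiff ℝ ∞ (fun z : E1 => z.1 i) := (contDiff_apply ℝ ℂ i).comp contDiff_fst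
  exact contDiff_snd.sub h1

theorem sx_rts (b : C6) (x : ℂ) : sx (rts b) x = fb b x := by
  have h1 : fb b x = (∏ k : Fin 6, (Polynomial.X - Polynomial.C (b k))).eval x := by
    simp [H578.fb, Polynomial.eval_prod]
  have hm : (∏ k : Fin 6, (Polynomial.X - Polynomial.C (b k))).Monic :=
    Polynomial.monic_prod_of_monic _ _ fun k _ => Polynomial.monic_X_sub_C (b k)
  have hd : (∏ k : Fin 6, (Polynomial.X - Polynomial.C (b k))).natDegree = 6 := by
    rw [Polynomial.natDegree_prod_of_monic _ _ fun k _ => Polynomial.monic_X_sub_C (b k)]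
    simp
  rw [h1, Polynomial.eval_eq_sum_range, hd, Finset.sum_range_succ]
  have h6 : (∏ k : Fin 6, (Polynomial.X - Polynomial.C (b k))).coeff 6 = 1 := by
    have := hm.coeff_natDegree
    rwa [hd] at this
  rw [h6, one_mul, add_comm]
  unfold sx
  congr 1

theorem sw_eq (a : C6) {w : ℂ} (hw : w ≠ 0) : H95.sw a w = w ^ 6 * sx a w⁻¹ := by
  unfold H95.sw sx
  rw [mul_add, Finset.mul_sum]
  congr 1
  · field_simp
  · refine Finset.sum_congr rfl fun i _ => ?_
    have h1 : (6 : ℕ) = (6 - (i : ℕ)) + i := by omega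
    have h2 : w ^ 6 = w ^ (6 - (i : ℕ)) * w ^ (i : ℕ) := by
      rw [← pow_add, ← h1]
    rw [h2, inv_pow]
    field_simp

theorem pol_false (b : C6) (x : ℂ) : pol false (rts b) x = fb b x := by
  simp [pol, sx_rts]

theorem pol_true (b : C6) (w : ℂ) : pol true (rts b) w = ∏ i : Fin 6, (1 - b i * w) := by
  simp only [pol, if_true]
  rcases eq_or_ne w 0 with rfl | hw
  · simp only [H95.sw, mul_zero, sub_zero, Finset.prod_const_one]
    rw [Finset.sum_eq_zero, add_zero]
    intro i _
    rw [zero_pow (by omega), mul_zero]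
  · rw [sw_eq _ hw, sx_rts]
    unfold H578.fb
    have : w ^ 6 = ∏ i : Fin 6, w := by simp
    rw [this, ← Finset.prod_mul_distrib]
    refine Finset.prod_congr rfl fun i _ => ?_
    rw [mul_sub, mul_inv_cancel₀ hw, mul_comm]

theorem contDiff_pol (s : Bool) : ContDiff ℝ ∞ (fun z : E1 => pol s (rts z.1) z.2) := by
  cases s
  · simp only [pol_false]
    exact contDiff_fb
  · simp only [pol_true]
    apply contDiff_prod
    intro i _
    have h1 : ContDiff ℝ ∞ (fun z : E1 => z.1 i) := (contDiff_apply ℝ ℂ i).comp contDiff_fst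
    exact contDiff_const.sub (h1.mul contDiff_snd)

theorem on1_false {b : C6} {p : ℂ × ℂ} : On1 false (b, p.1) p.2 ↔ Pt b p := by
  unfold On1 H578.Pt
  rw [pol_false]

/-! ## Square roots of products -/

theorem half_mul {A B : ℂ} (hA : 0 < A.re) (hB : 0 < B.re) :
    (A * B) ^ (1 / 2 : ℂ) = A ^ (1 / 2 : ℂ) * B ^ (1 / 2 : ℂ) ∧ A * B ∈ Complex.slitPlane := by
  have hA0 : A ≠ 0 := fun h => by rw [h] at hA; simp at hA
  have hB0 : B ≠ 0 := fun h => by rw [h] at hB; simp at hB
  have h1 : |A.arg| < Real.pi / 2 := Complex.abs_arg_lt_pi_div_two_iff.2 (Or.inl hA)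
  have h2 : |B.arg| < Real.pi / 2 := Complex.abs_arg_lt_pi_div_two_iff.2 (Or.inl hB)
  rw [abs_lt] at h1 h2
  have h3 : A.arg + B.arg ∈ Ioc (-Real.pi) Real.pi := ⟨by linarith, by linarith⟩
  have h4 : Complex.log (A * B) = Complex.log A + Complex.log B :=
    Complex.log_mul hA0 hB0 h3
  constructor
  · rw [Complex.cpow_def_of_ne_zero (mul_ne_zero hA0 hB0), h4, add_mul, Complex.exp_add,
      ← Complex.cpow_def_of_ne_zero hA0, ← Complex.cpow_def_of_ne_zero hB0]
  · rw [Complex.mem_slitPlane_iff_arg]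
    refine ⟨?_, mul_ne_zero hA0 hB0⟩
    rw [Complex.arg_mul hA0 hB0 h3]
    linarith

theorem half_sq (A : ℂ) : (A ^ (1 / 2 : ℂ)) ^ 2 = A := by
  rw [← Complex.cpow_nat_mul, Nat.cast_ofNat, mul_one_div_cancel two_ne_zero, Complex.cpow_one]

end Vale.Agent.P273.H973

end
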