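import Vale.Agent.P273.H95.Wall

/-!
# P273, row GAUGE-I (helper973): the one mark gauge

What the potentials (857, 214, 908) deliver for ONE mark, before the recursion over the marks of the
same type.  Chart s = false: coordinates (b, x), sheet y; s = true: (b, w = 1/x), sheet v = y/x^3.
-/

noncomputable section

namespace Vale.Agent.P273.H973

open Set Filter H681 H95
open scoped Topology ContDiff

/-- roots and the coordinate of one mark -/
abbrev E1 := C6 × ℂ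

/-- v is a value of the root of the polynomial at e in the chart s, and not zero -/
def On1 (s : Bool) (e : E1) (v : ℂ) : Prop := v ^ 2 = pol s (rts e.1) e.2 ∧ v ≠ 0

/-- near (e,v) the form is one smooth closed form along the curve -/
def Near1 (s : Bool) (η : E1 → ℂ → (E1 →L[ℝ] ℝ)) (e : E1) (v : ℂ) : Prop :=
  ∃ (W : Set E1) (g : E1 → (E1 →L[ℝ] ℝ)) (r : ℝ), IsOpen W ∧ e ∈ W ∧ 0 < r ∧
    ContDiffOn ℝ ∞ g W ∧ (∀ p ∈ W, ∀ u w, fderiv ℝ g p u w = fderiv ℝ g p w u) ∧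
    ∀ p ∈ W, ∀ v' : ℂ, v' ^ 2 = pol s (rts p.1) p.2 → ‖v' - v‖ < r → η p v' = g p

/-- **The one mark gauge**: the flat potential after the cut-offs at the roots and at infinity. -/
structure One where
  η : (Fin 6 → ℝ) → Bool → E1 → ℂ → (E1 →L[ℝ] ℝ)
  add : ∀ ξ ζ s e v, IsCl ξ → IsCl ζ → e.1 ∈ XX → On1 s e v →
    η (ξ + ζ) s e v = η ξ s e v + η ζ s e v
  smul : ∀ (c : ℝ) ξ s e v, IsCl ξ → e.1 ∈ XX → On1 s e v → η (c • ξ) s e v = c • η ξ s e v
  const : ∀ s e v, e.1 ∈ XX → On1 s e v → η (fun _ => 1) s e v = 0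
  reg : ∀ ξ s e v, IsCl ξ → e.1 ∈ XX → On1 s e v → Near1 s (η ξ s) e v
  /-- near the roots -/
  root : ∀ b ∈ XX, ∀ k : Fin 6, ∃ r > 0, ∀ ξ (e : E1) v, IsCl ξ → ‖e.1 - b‖ < r →
    ‖e.2 - b k‖ < r → On1 false e v → η ξ false e v = 0
  /-- near infinity: vertically zero, plus or minus the same form of the roots on the two sheets -/
  far : ∀ b ∈ XX, ∃ r > 0, ∃ g : (Fin 6 → ℝ) → C6 → (C6 →L[ℝ] ℝ), ∀ ξ (e : E1) v, IsCl ξ →
    ‖e.1 - b‖ < r → ‖e.2‖ < r → On1 true e v →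
    η ξ true e v = (if 0 < v.re then (1 : ℝ) else -1) • (g ξ e.1).comp (ContinuousLinearMap.fst ℝ C6 ℂ)
  /-- change of charts -/
  chg : ∀ ξ (e : E1) v, IsCl ξ → e.1 ∈ XX → e.2 ≠ 0 → On1 false e v →
    η ξ false e v = (η ξ true (e.1, e.2⁻¹) (v * (e.2⁻¹) ^ 3)).comp
      (fderiv ℝ (fun p : E1 => ((p.1, (p.2)⁻¹) : E1)) e)
  /-- half twist -/
  law : ∀ ξ s (e : E1) v (i : Fin 5), IsCl ξ → e.1 ∈ XX →
    (e.1 i.succ).re < (e.1 i.castSucc).re → On1 s e v →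
    η ξ s e v = (η (act i ξ) s (swL i e.1, e.2) v).comp
      ((swL i).prodMap (ContinuousLinearMap.id ℝ ℂ))

end Vale.Agent.P273.H973

end
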