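import Vale.Agent.P273.H973.GaugeDef
import Vale.Agent.P273.H973.Pol
import Vale.Agent.P273.H401.Base

/-!
# P273, row GAUGE-I (helper973): branches of the sheets, germs of the gauge
-/

noncomputable section

namespace Vale.Agent.P273.H973

open Set Filter H681 H95
open H578 (Pt fb chiT psiT Branch SCl Clo br brO rad Off Hs)
open scoped Topology ContDiff

variable {S : L → Bool} {t : Bool} {e : E} {v : L → ℂ} {V V' : E → L → ℂ}

theorem two_le_inf : (2 : WithTop ℕ∞) ≤ ∞ := WithTop.coe_le_coe.2 le_top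

/-! ## Branches -/

theorem contDiff_polE (s : Bool) (j : L) :
    ContDiff ℝ ∞ (fun e : E => pol s (rts e.1) (e.2 j)) := by
  have h1 : ContDiff ℝ ∞ (fun e : E => prj j e) := (prj j).contDiff
  have h2 := ContDiff.comp (g := fun z : E1 => pol s (rts z.1) z.2) (contDiff_pol s) h1
  simpa only [Function.comp_def, prj_apply] using h2

theorem pol_ne (h : OnC S (rts e.1) e.2 v) (j : L) : pol (S j) (rts e.1) (e.2 j) ≠ 0 := by
  rw [← (h j).1]
  exact pow_ne_zero 2 (h j).2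

theorem brE_self (h : OnC S (rts e.1) e.2 v) : brE S e v e = v := by
  funext j
  unfold brE
  rw [div_self (pol_ne h j), Complex.one_cpow, mul_one]

theorem brE_BrE (hb : e.1 ∈ XX) (h : OnC S (rts e.1) e.2 v) : BrE S (brE S e v) e := by
  refine ⟨hb, ?_⟩
  have h1 : ∀ᶠ e' : E in 𝓝 e, e'.1 ∈ XX :=
    (H401.isOpen_XX.preimage continuous_fst).mem_nhds hb
  have h2 : ∀ᶠ e' : E in 𝓝 e, ∀ j, pol (S j) (rts e'.1) (e'.2 j) / pol (S j) (rts e.1) (e.2 j) ∈
      Complex.slitPlane := by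
    refine eventually_all.2 fun j => ?_
    have hc : Continuous (fun e' : E => pol (S j) (rts e'.1) (e'.2 j) /
      pol (S j) (rts e.1) (e.2 j)) := (contDiff_polE (S j) j).continuous.div_const _
    refine (Complex.isOpen_slitPlane.preimage hc).mem_nhds ?_
    show pol (S j) (rts e.1) (e.2 j) / pol (S j) (rts e.1) (e.2 j) ∈ Complex.slitPlane
    rw [div_self (pol_ne h j)]
    exact Complex.one_mem_slitPlane
  filter_upwards [h1, h2] with e' h1 h2
  refine ⟨h1, fun j => ⟨?_, ?_⟩, fun j => ?_⟩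
  · unfold brE
    rw [mul_pow, half_sq, (h j).1]
    have := pol_ne h j
    field_simp
  · unfold brE
    refine mul_ne_zero (h j).2 fun h3 => ?_
    have h4 := half_sq (pol (S j) (rts e'.1) (e'.2 j) / pol (S j) (rts e.1) (e.2 j))
    rw [h3] at h4
    exact Complex.slitPlane_ne_zero (h2 j) (by rw [← h4]; norm_num)
  · have h5 : ContDiffAt ℝ ∞ (fun e'' : E => pol (S j) (rts e''.1) (e''.2 j) /
        pol (S j) (rts e.1) (e.2 j)) e' := (contDiff_polE (S j) j).contDiffAt.div_const _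
    have h6 : ContDiffAt ℝ ∞ (fun w : ℂ => w ^ (1 / 2 : ℂ))
        (pol (S j) (rts e'.1) (e'.2 j) / pol (S j) (rts e.1) (e.2 j)) := by
      have h3 : AnalyticAt ℂ (fun w : ℂ => w ^ (1 / 2 : ℂ))
          (pol (S j) (rts e'.1) (e'.2 j) / pol (S j) (rts e.1) (e.2 j)) :=
        analyticAt_id.cpow analyticAt_const (h2 j)
      exact (h3.contDiffAt (n := ∞)).restrict_scalars ℝ
    exact contDiffAt_const.mul (ContDiffAt.comp e' (g := fun w : ℂ => w ^ (1 / 2 : ℂ)) h6 h5)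

theorem BrE.onC (h : BrE S V e) : OnC S (rts e.1) e.2 (V e) := h.ev.self_of_nhds.2.1

theorem BrE.smooth (h : BrE S V e) (j : L) : ContDiffAt ℝ ∞ (fun e' => V e' j) e :=
  h.ev.self_of_nhds.2.2 j

theorem BrE.eventually (h : BrE S V e) : ∀ᶠ e' in 𝓝 e, BrE S V e' := by
  filter_upwards [eventually_eventually_nhds.2 h.ev] with e' he'
  exact ⟨he'.self_of_nhds.1, he'⟩

theorem BrE.unique (h : BrE S V e) (h' : BrE S V' e) (he : V e = V' e) : V =ᶠ[𝓝 e] V' := by
  have h1 : ∀ j, ∀ᶠ e' in 𝓝 e, V e' j = V' e' j := by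
    intro j
    refine H578.eventuallyEq_of_sq (h.smooth j).continuousAt (h'.smooth j).continuousAt ?_
      (congrFun he j) (h.onC j).2
    filter_upwards [h.ev, h'.ev] with e' h1 h2
    rw [(h1.2.1 j).1, (h2.2.1 j).1]
  filter_upwards [eventually_all.2 h1] with e' he'
  funext j
  exact he' j

theorem BrE.near (h : BrE S V e) : ∃ r > 0, ∀ᶠ e' in 𝓝 e, ∀ v' : L → ℂ,
    (∀ j, v' j ^ 2 = pol (S j) (rts e'.1) (e'.2 j)) → (∀ j, ‖v' j - V e j‖ < r) → v' = V e' := by
  have hne : (Finset.univ : Finset L).Nonempty := ⟨(0, true), Finset.mem_univ _⟩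
  refine ⟨Finset.univ.inf' hne fun j => ‖V e j‖, ?_, ?_⟩
  · rw [gt_iff_lt, Finset.lt_inf'_iff]
    intro j _
    exact norm_pos_iff.2 (h.onC j).2
  · have h1 : ∀ j, ∀ᶠ e' in 𝓝 e, ‖V e j‖ < ‖V e' j + V e j‖ := by
      intro j
      have hc : ContinuousAt (fun e' => ‖V e' j + V e j‖) e :=
        ((h.smooth j).continuousAt.add continuousAt_const).norm
      refine hc.eventually (lt_mem_nhds ?_)
      have h2 : V e j + V e j = 2 * V e j := by ring
      show ‖V e j‖ < ‖V e j + V e j‖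
      rw [h2, norm_mul, Complex.norm_ofNat]
      have := norm_pos_iff.2 (h.onC j).2
      linarith
    filter_upwards [eventually_all.2 h1, h.ev] with e' h2 h3 v' hv hn
    funext j
    have h4 : v' j ^ 2 = V e' j ^ 2 := by rw [hv j, (h3.2.1 j).1]
    rcases sq_eq_sq_iff_eq_or_eq_neg.1 h4 with h5 | h5
    · exact h5
    · exfalso
      have h6 := hn j
      rw [h5] at h6
      have h7 : ‖-V e' j - V e j‖ = ‖V e' j + V e j‖ := by
        rw [← norm_neg]
        congr 1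
        ring
      rw [h7] at h6
      have h8 : ‖V e j‖ < ‖V e j‖ := (h2 j).trans (h6.trans_le
        (Finset.inf'_le _ (Finset.mem_univ j)))
      exact lt_irrefl _ h8

/-! ## Change of the branch -/

section Congr

variable (O : One) (ξ : Fin 6 → ℝ)

theorem gfun_congr_br (h : V =ᶠ[𝓝 e] V') (k : Fin 7) :
    gfun (cE S t V) (pE O ξ S t V) k =ᶠ[𝓝 e] gfun (cE S t V') (pE O ξ S t V') k := by
  filter_upwards [h] with e' he'
  unfold gfun cE pE
  rw [he']

theorem thE_congr (h : V =ᶠ[𝓝 e] V') (j : L) :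
    thE O ξ S V j =ᶠ[𝓝 e] thE O ξ S V' j := by
  filter_upwards [eventually_eventually_nhds.2 (gfun_congr_br (S := S) (t := j.2) O ξ h j.1), h]
    with e' h1 h2
  have h3 : fderiv ℝ (gfun (cE S j.2 V) (pE O ξ S j.2 V) j.1) e' =
      fderiv ℝ (gfun (cE S j.2 V') (pE O ξ S j.2 V') j.1) e' := Filter.EventuallyEq.fderiv_eq h1
  show (O.η ξ (S (j.1, j.2)) (prj (j.1, j.2) e') (V e' (j.1, j.2))).comp (prj (j.1, j.2)) +
    fderiv ℝ (gfun (cE S j.2 V) (pE O ξ S j.2 V) j.1) e' =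
    (O.η ξ (S (j.1, j.2)) (prj (j.1, j.2) e') (V' e' (j.1, j.2))).comp (prj (j.1, j.2)) +
    fderiv ℝ (gfun (cE S j.2 V') (pE O ξ S j.2 V') j.1) e'
  rw [h3, h2]

theorem th_good (hb : e.1 ∈ XX) (h : OnC S (rts e.1) e.2 v) (j : L) :
    th O j ξ S e v = thE O ξ S (brE S e v) j e := by
  unfold th
  rw [if_pos ⟨hb, h⟩]

theorem th_bad (h : ¬ (e.1 ∈ XX ∧ OnC S (rts e.1) e.2 v)) (j : L) : th O j ξ S e v = 0 := by
  unfold th
  rw [if_neg h]

theorem th_self (h : BrE S V e) (j : L) : th O j ξ S e (V e) = thE O ξ S V j e := by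
  rw [th_good O ξ h.mem h.onC]
  exact (thE_congr O ξ ((brE_BrE h.mem h.onC).unique h (brE_self h.onC)) j).self_of_nhds

omit ξ in
theorem th_eq_all (h : BrE S V e) :
    ∀ᶠ e' in 𝓝 e, ∀ j ξ, th O j ξ S e' (V e') = thE O ξ S V j e' := by
  filter_upwards [h.eventually] with e' he' j ξ
  exact th_self O ξ he' j

theorem th_eq (h : BrE S V e) (j : L) :
    ∀ᶠ e' in 𝓝 e, th O j ξ S e' (V e') = thE O ξ S V j e' := by
  filter_upwards [h.eventually] with e' he'
  exact th_self O ξ he' j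

end Congr

/-! ## The points of the marks -/

theorem fin_eventually {k : Fin 7} (hk : fin S t e k) : ∀ᶠ e' in 𝓝 e, fin S t e' k := by
  unfold fin at hk ⊢
  rcases Bool.eq_false_or_eq_true (S (k, t)) with h | h
  · have h1 : e.2 (k, t) ≠ 0 := fun h2 => hk ⟨h, h2⟩
    have hc : ContinuousAt (fun e' : E => e'.2 (k, t)) e :=
      ((continuous_apply (k, t)).comp continuous_snd).continuousAt
    filter_upwards [hc.eventually_ne h1] with e' he' h3
    exact he' h3.2
  · filter_upwards with e' h3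
    rw [h] at h3
    exact absurd h3.1 (by simp)

theorem pt_PP (h : OnC S (rts e.1) e.2 v) {k : Fin 7} (hk : fin S t e k) :
    Pt e.1 (PP S t e v k) := by
  unfold PP Xp Yp
  have h1 := h (k, t)
  rcases Bool.eq_false_or_eq_true (S (k, t)) with hs | hs
  · rw [hs] at h1
    have h2 : e.2 (k, t) ≠ 0 := fun h2 => hk ⟨hs, h2⟩
    rw [hs, if_pos rfl, if_pos rfl]
    refine ⟨?_, ?_⟩
    · show (v (k, t) * ((e.2 (k, t))⁻¹) ^ 3) ^ 2 = fb e.1 (e.2 (k, t))⁻¹
      rw [mul_pow, h1.1]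
      simp only [pol, if_true]
      rw [sw_eq _ h2, sx_rts]
      field_simp
    · exact mul_ne_zero h1.2 (pow_ne_zero 3 (inv_ne_zero h2))
  · rw [hs] at h1
    rw [hs]
    simp only [Bool.false_eq_true, if_false]
    refine ⟨?_, h1.2⟩
    show v (k, t) ^ 2 = fb e.1 (e.2 (k, t))
    rw [h1.1, pol_false]

theorem contDiffAt_coord (j : L) : ContDiffAt ℝ ∞ (fun e' : E => e'.2 j) e :=
  ((contDiff_apply ℝ ℂ j).comp contDiff_snd).contDiffAt

theorem contDiffAt_PP (h : BrE S V e) {k : Fin 7} (hk : fin S t e k) :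
    ContDiffAt ℝ ∞ (fun e' => PP S t e' (V e') k) e := by
  unfold PP Xp Yp
  rcases Bool.eq_false_or_eq_true (S (k, t)) with hs | hs
  · have h2 : e.2 (k, t) ≠ 0 := fun h2 => hk ⟨hs, h2⟩
    simp only [hs, if_true]
    have h3 : ContDiffAt ℝ ∞ (fun e' : E => (e'.2 (k, t))⁻¹) e :=
      (contDiffAt_coord (k, t)).inv h2
    exact h3.prodMk ((h.smooth (k, t)).mul (h3.pow 3))
  · simp only [hs, Bool.false_eq_true, if_false]
    exact (contDiffAt_coord (k, t)).prodMk (h.smooth (k, t))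

/-! ## The one mark form -/

section OneMark

variable (O : One) {ξ : Fin 6 → ℝ} (hξ : IsCl ξ)
include hξ

theorem scl_etx : SCl XX (etx O ξ) := by
  refine SCl.of_germ fun b hb p hp => ?_
  obtain ⟨W, g, r, hW, hzW, hr, hg, hs, hgv⟩ := O.reg ξ false (b, p.1) p.2 hξ hb
    (by refine ⟨?_, hp.2⟩; rw [pol_false]; exact hp.1)
  have hB := H578.branch_br (W := XX) H401.isOpen_XX hp
  have hm := H578.mem_brO hb hp
  have hcont : ContinuousAt (br b p) (b, p.1) := hB.cont.continuousAt (hB.isOpen.mem_nhds hm)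
  have h1 : ∀ᶠ z in 𝓝 ((b, p.1) : (Fin 6 → ℂ) × ℂ), z ∈ brO XX b p ∧ z ∈ W ∧
      ‖br b p z - p.2‖ < r := by
    filter_upwards [hB.isOpen.mem_nhds hm, hW.mem_nhds hzW, Metric.continuousAt_iff'.1 hcont r hr]
      with z h2 h3 h4
    refine ⟨h2, h3, ?_⟩
    rwa [H578.br_self hp, dist_eq_norm] at h4
  obtain ⟨O', hO's, hO', hmO⟩ := eventually_nhds_iff.1 h1
  refine ⟨O', br b p, hB.mono hO' fun z hz => (hO's z hz).1, hmO, H578.br_self hp, hO', ?_, ?_⟩
  · refine (hg.mono fun z hz => (hO's z hz).2.1).congr fun z hz => ?_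
    refine hgv z (hO's z hz).2.1 _ ?_ (hO's z hz).2.2
    rw [pol_false]
    exact hB.sq z (hO's z hz).1
  · intro z hz u w
    have h2 : (fun z : (Fin 6 → ℂ) × ℂ => etx O ξ z.1 z.2 (br b p z)) =ᶠ[𝓝 z] g := by
      filter_upwards [hO'.mem_nhds hz] with z' hz'
      refine hgv z' (hO's z' hz').2.1 _ ?_ (hO's z' hz').2.2
      rw [pol_false]
      exact hB.sq z' (hO's z' hz').1
    rw [h2.fderiv_eq]
    exact hs z (hO's z hz).2.1 u w

omit hξ in
theorem far_vert_all {b0 : C6} (hb0 : b0 ∈ XX) : ∃ R > 0, ∀ᶠ b in 𝓝 b0, (∀ i, ‖b i‖ ≤ R) ∧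
    ∀ ξ, IsCl ξ → ∀ x', R < ‖x'‖ → ∀ y', Pt b (x', y') → ∀ w, etx O ξ b x' y' (0, w) = 0 := by
  obtain ⟨r, hr, g, hg⟩ := O.far b0 hb0
  refine ⟨max (1 / r) (‖b0‖ + 1), lt_max_of_lt_left (by positivity), ?_⟩
  filter_upwards [Metric.ball_mem_nhds b0 hr, Metric.ball_mem_nhds b0 one_pos,
    H401.isOpen_XX.mem_nhds hb0] with b h1 h2 h3
  rw [Metric.mem_ball, dist_eq_norm] at h1 h2
  refine ⟨fun i => ?_, fun ξ hξ x' hx' y' hp w => ?_⟩
  · have h4 : ‖b‖ ≤ ‖b0‖ + 1 := by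
      have := norm_add_le (b - b0) b0
      rw [sub_add_cancel] at this
      linarith
    exact ((norm_le_pi_norm b i).trans h4).trans (le_max_right _ _)
  · have hx0 : x' ≠ 0 := by
      rintro rfl
      rw [norm_zero] at hx'
      have := le_max_right (1 / r) (‖b0‖ + 1)
      have := norm_nonneg b0
      linarith
    have hon : On1 false (b, x') y' := ⟨by rw [pol_false]; exact hp.1, hp.2⟩
    have hxr : ‖x'⁻¹‖ < r := by
      rw [norm_inv]
      have h5 : 1 / r < ‖x'‖ := (le_max_left _ _).trans_lt hx'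
      rw [div_lt_iff₀ hr] at h5
      rw [inv_lt_iff_one_lt_mul₀ (norm_pos_iff.2 hx0), mul_comm]
      exact h5
    have hon' : On1 true (b, x'⁻¹) (y' * (x'⁻¹) ^ 3) := by
      refine ⟨?_, mul_ne_zero hp.2 (pow_ne_zero 3 (inv_ne_zero hx0))⟩
      show (y' * (x'⁻¹) ^ 3) ^ 2 = pol true (rts b) x'⁻¹
      simp only [pol, if_true]
      rw [sw_eq _ (inv_ne_zero hx0), inv_inv, sx_rts, mul_pow, hp.1]
      ring
    have h6 := O.chg ξ (b, x') y' hξ h3 hx0 hon
    have h7 := hg ξ (b, x'⁻¹) (y' * (x'⁻¹) ^ 3) hξ h1 hxr hon'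
    have h8 : HasFDerivAt (fun p : E1 => ((p.1, (p.2)⁻¹) : E1))
        ((ContinuousLinearMap.fst ℝ C6 ℂ).prod (((ContinuousLinearMap.toSpanSingleton ℂ
          (-(x' ^ 2)⁻¹)).restrictScalars ℝ).comp (ContinuousLinearMap.snd ℝ C6 ℂ))) (b, x') := by
      have h9 : HasFDerivAt (fun p : E1 => (p.2)⁻¹) (((ContinuousLinearMap.toSpanSingleton ℂ
          (-(x' ^ 2)⁻¹)).restrictScalars ℝ).comp (ContinuousLinearMap.snd ℝ C6 ℂ)) (b, x') :=
        ((hasDerivAt_inv hx0).hasFDerivAt.restrictScalars ℝ).comp (b, x') hasFDerivAt_snd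
      exact hasFDerivAt_fst.prodMk h9
    show O.η ξ false (b, x') y' (0, w) = 0
    rw [h6]
    show (O.η ξ true (b, x'⁻¹) (y' * (x'⁻¹) ^ 3))
      (fderiv ℝ (fun p : E1 => ((p.1, (p.2)⁻¹) : E1)) (b, x') (0, w)) = 0
    rw [h7, h8.fderiv]
    simp only [_root_.smul_apply, ContinuousLinearMap.comp_apply,
      ContinuousLinearMap.prod_apply, ContinuousLinearMap.coe_fst', map_zero, smul_zero]

theorem far_vert {b0 : C6} (hb0 : b0 ∈ XX) : ∃ R > 0, ∀ᶠ b in 𝓝 b0, (∀ i, ‖b i‖ ≤ R) ∧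
    ∀ x', R < ‖x'‖ → ∀ y', Pt b (x', y') → ∀ w, etx O ξ b x' y' (0, w) = 0 := by
  obtain ⟨R, hR, h⟩ := far_vert_all O hb0
  refine ⟨R, hR, ?_⟩
  filter_upwards [h] with b hb
  exact ⟨hb.1, hb.2 ξ hξ⟩

end OneMark

/-! ## Smoothness of the recursion -/

section Smooth

variable (O : One) {ξ : Fin 6 → ℝ} (hξ : IsCl ξ)

/-- a finite mark does not see the marks that run to infinity -/
theorem row_eventually (h : BrE S V e) {k : Fin 7} (hk : fin S t e k) :
    ∀ᶠ e' in 𝓝 e, ∀ l, chiT (fin S t e') e'.1 (PP S t e' (V e')) k l =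
      chiT (fin S t e) e'.1 (PP S t e' (V e')) k l := by
  refine eventually_all.2 fun l => ?_
  by_cases hl : fin S t e l
  · filter_upwards [fin_eventually hk, fin_eventually hl] with e' h1 h2
    unfold H578.chiT
    rw [if_pos ⟨h1, h2⟩, if_pos ⟨hk, hl⟩]
  · have hl' : S (l, t) = true ∧ e.2 (l, t) = 0 := by
      unfold fin at hl
      exact not_not.1 hl
    have hX := (contDiffAt_PP h hk).continuousAt.fst
    have hc : ContinuousAt (fun e' : E => ‖(PP S t e' (V e') k).1‖ +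
        rad k * ‖(PP S t e' (V e') k).1 - e'.1 0‖) e := by
      have h1 : ContinuousAt (fun e' : E => e'.1 0) e :=
        ((continuous_apply 0).comp continuous_fst).continuousAt
      exact hX.norm.add (continuousAt_const.mul (hX.sub h1).norm)
    set M := ‖(PP S t e (V e) k).1‖ + rad k * ‖(PP S t e (V e) k).1 - e.1 0‖ with hM
    have hM0 : 0 ≤ M := by
      have := H578.rad_pos k
      positivity
    have h2 : ∀ᶠ e' in 𝓝 e, ‖(PP S t e' (V e') k).1‖ +
        rad k * ‖(PP S t e' (V e') k).1 - e'.1 0‖ < M + 1 :=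
      hc.eventually (gt_mem_nhds (by linarith))
    have h3 : ∀ᶠ e' : E in 𝓝 e, ‖e'.2 (l, t)‖ < 1 / (M + 1) := by
      have hc : ContinuousAt (fun e' : E => ‖e'.2 (l, t)‖) e :=
        ((continuous_apply (l, t)).comp continuous_snd).norm.continuousAt
      refine hc.eventually (gt_mem_nhds ?_)
      show ‖e.2 (l, t)‖ < _
      rw [hl'.2, norm_zero]
      positivity
    filter_upwards [h2, h3, h.ev, fin_eventually hk] with e' h4 h5 h6 h7
    have e1 : chiT (fin S t e) e'.1 (PP S t e' (V e')) k l = 0 := by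
      unfold H578.chiT
      rw [if_neg fun h8 => hl h8.2]
    rw [e1]
    unfold H578.chiT
    split_ifs with h8
    · refine H578.cut_far (H578.rad_pos k) (pt_PP h6.2.1 h7).off 0 ?_
      have h9 : e'.2 (l, t) ≠ 0 := fun h9 => h8.2 ⟨hl'.1, h9⟩
      have h10 : (PP S t e' (V e') l).1 = (e'.2 (l, t))⁻¹ := by
        unfold PP Xp
        simp only [hl'.1, if_true]
      rw [h10, norm_inv]
      refine h4.le.trans ?_
      rw [lt_div_iff₀ (by positivity)] at h5
      rw [← one_div, le_div_iff₀ (norm_pos_iff.2 h9), mul_comm]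
      exact h5.le
    · rfl

theorem gfun_inf_all (h : BrE S V e) {k : Fin 7} (hk : ¬ fin S t e k) :
    ∀ᶠ e' in 𝓝 e, ∀ ξ, IsCl ξ → gfun (cE S t V) (pE O ξ S t V) k e' = 0 := by
  obtain ⟨R, hR, hfar⟩ := far_vert_all O h.mem
  have hk' : S (k, t) = true ∧ e.2 (k, t) = 0 := by
    unfold fin at hk
    exact not_not.1 hk
  have h1 : ∀ᶠ e' : E in 𝓝 e, (∀ i, ‖e'.1 i‖ ≤ R) ∧ ∀ ξ, IsCl ξ →
      ∀ x', R < ‖x'‖ → ∀ y', Pt e'.1 (x', y') → ∀ w, etx O ξ e'.1 x' y' (0, w) = 0 :=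
    (continuous_fst.continuousAt (x := e)).eventually hfar
  have h3 : ∀ᶠ e' : E in 𝓝 e, ‖e'.2 (k, t)‖ < 1 / (2 ^ (k : ℕ) * R) := by
    have hc : ContinuousAt (fun e' : E => ‖e'.2 (k, t)‖) e :=
      ((continuous_apply (k, t)).comp continuous_snd).norm.continuousAt
    refine hc.eventually (gt_mem_nhds ?_)
    show ‖e.2 (k, t)‖ < _
    rw [hk'.2, norm_zero]
    positivity
  filter_upwards [h1, h3, h.ev] with e' h4 h5 h6 ξ hξ
  by_cases h7 : fin S t e' k
  · refine H578.gf_far (fun l hl => (pt_PP h6.2.1 hl).1) hR h4.1 (h4.2 ξ hξ) ?_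
    have h9 : e'.2 (k, t) ≠ 0 := fun h9 => h7 ⟨hk'.1, h9⟩
    have h10 : (PP S t e' (V e') k).1 = (e'.2 (k, t))⁻¹ := by
      unfold PP Xp
      simp only [hk'.1, if_true]
    rw [h10, norm_inv]
    rw [lt_div_iff₀ (by positivity)] at h5
    rw [← one_div, lt_div_iff₀ (norm_pos_iff.2 h9), mul_comm]
    exact h5
  · exact H578.gf_not k h7

include hξ

theorem gfun_inf (h : BrE S V e) {k : Fin 7} (hk : ¬ fin S t e k) :
    ∀ᶠ e' in 𝓝 e, gfun (cE S t V) (pE O ξ S t V) k e' = 0 := by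
  filter_upwards [gfun_inf_all O h hk] with e' he'
  exact he' ξ hξ

/-- **the recursion is smooth** -/
theorem gfun_smooth (h : BrE S V e) (k : Fin 7) :
    ContDiffAt ℝ ∞ (gfun (cE S t V) (pE O ξ S t V) k) e := by
  refine contDiffAt_gfun (fun k => ?_) k
  by_cases hk : fin S t e k
  · right
    intro l _
    have hb : ContDiffAt ℝ ∞ (fun e' : E => e'.1) e := contDiffAt_fst
    have hP : ∀ m, fin S t e m → ContDiffAt ℝ ∞ (fun e' => PP S t e' (V e') m) e :=
      fun m hm => contDiffAt_PP h hm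
    have hrow := row_eventually h hk
    constructor
    · refine (H578.contDiffAt_chiT (a := fin S t e) (P := fun e' => PP S t e' (V e')) hb hP
        (fun m hm => pt_PP h.onC hm) k l).congr_of_eventuallyEq ?_
      filter_upwards [hrow] with e' he'
      exact he' l
    · refine (H578.contDiffAt_psiT (a := fin S t e) (P := fun e' => PP S t e' (V e'))
        (scl_etx O hξ) H401.isOpen_XX h.mem hb hP (fun m hm => ?_) k l).congr_of_eventuallyEq ?_
      · filter_upwards [h.ev, fin_eventually hm] with e' h1 h2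
        exact pt_PP h1.2.1 h2
      · filter_upwards [hrow] with e' he'
        show psiT _ _ _ _ _ _ = psiT _ _ _ _ _ _
        unfold H578.psiT
        rw [he' l]
  · exact Or.inl (gfun_inf O hξ h hk)

end Smooth

/-! ## The one mark forms -/

section Eta

variable (O : One) {ξ : Fin 6 → ℝ} (hξ : IsCl ξ)
include hξ

theorem etaE_germ (h : BrE S V e) (j : L) : ∃ g : E1 → (E1 →L[ℝ] ℝ),
    ContDiffAt ℝ ∞ g (prj j e) ∧ (∀ u w, fderiv ℝ g (prj j e) u w = fderiv ℝ g (prj j e) w u) ∧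
    ∀ᶠ e' in 𝓝 e, etaE O ξ S V j e' = (g (prj j e')).comp (prj j) := by
  obtain ⟨W, g, r, hW, hzW, hr, hg, hs, hgv⟩ := O.reg ξ (S j) (prj j e) (V e j) hξ h.mem
    (h.onC j)
  refine ⟨g, hg.contDiffAt (hW.mem_nhds hzW), hs _ hzW, ?_⟩
  filter_upwards [(prj j).continuous.continuousAt.eventually (hW.mem_nhds hzW),
    Metric.continuousAt_iff'.1 (h.smooth j).continuousAt r hr, h.ev] with e' h1 h2 h3
  unfold etaE
  rw [hgv (prj j e') h1 (V e' j) (h3.2.1 j).1 (by rwa [← dist_eq_norm])]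

theorem etaE_smooth (h : BrE S V e) (j : L) : ContDiffAt ℝ ∞ (etaE O ξ S V j) e := by
  obtain ⟨g, h1, -, h3⟩ := etaE_germ O hξ h j
  have h4 : ContDiffAt ℝ ∞ (fun e' : E => (g (prj j e')).comp (prj j)) e :=
    (ContDiffAt.comp e (g := g) h1 (prj j).contDiff.contDiffAt).clm_comp contDiffAt_const
  exact h4.congr_of_eventuallyEq h3

theorem etaE_symm (h : BrE S V e) (j : L) : Sym1 (etaE O ξ S V j) e := by
  obtain ⟨g, h1, h2, h3⟩ := etaE_germ O hξ h j
  intro u w
  have h4 : HasFDerivAt (fun e' : E => (g (prj j e')).comp (prj j))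
      (((ContinuousLinearMap.compL ℝ E E1 ℝ).flip (prj j)).comp
        ((fderiv ℝ g (prj j e)).comp (prj j))) e := by
    have h5 : HasFDerivAt (fun e' : E => g (prj j e')) ((fderiv ℝ g (prj j e)).comp (prj j)) e :=
      HasFDerivAt.comp e (g := g) (h1.differentiableAt (by simp)).hasFDerivAt (prj j).hasFDerivAt
    exact ((ContinuousLinearMap.compL ℝ E E1 ℝ).flip (prj j)).hasFDerivAt.comp e h5
  have h6 : fderiv ℝ (etaE O ξ S V j) e = ((ContinuousLinearMap.compL ℝ E E1 ℝ).flip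
      (prj j)).comp ((fderiv ℝ g (prj j e)).comp (prj j)) :=
    (h4.congr_of_eventuallyEq h3).fderiv
  rw [h6]
  exact h2 (prj j u) (prj j w)

/-- **the form of a mark is smooth and closed** -/
theorem thE_smooth (h : BrE S V e) (j : L) :
    ContDiffAt ℝ ∞ (thE O ξ S V j) e ∧ Sym1 (thE O ξ S V j) e := by
  have hg := gfun_smooth (t := j.2) O hξ h j.1
  constructor
  · exact contDiffAt_theta (m' := ∞) le_rfl (etaE_smooth O hξ h (j.1, j.2)) hg
  · exact theta_symm ((etaE_smooth O hξ h (j.1, j.2)).differentiableAt (by simp))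
      (etaE_symm O hξ h (j.1, j.2)) (hg.of_le two_le_inf)

theorem thE_smooth_ev (h : BrE S V e) (j : L) : ∀ᶠ e' in 𝓝 e,
    ContDiffAt ℝ ∞ (thE O ξ S V j) e' ∧ Sym1 (thE O ξ S V j) e' := by
  filter_upwards [h.eventually] with e' he'
  exact thE_smooth O hξ he' j

end Eta

end Vale.Agent.P273.H973

end
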