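import Vale.Agent.P273.H973.Theta

/-!
# P273, block OMEGA (helper973): bounds for the recursion, continuity in the data, relabelling
-/

open scoped ContDiff Topology
open Finset Function Filter

namespace Vale.Agent.P273.H973

noncomputable section

section Bounds

variable {H : Type*} [NormedAddCommGroup H] [NormedSpace ℝ H]

theorem norm_stp_le {c : ℕ → ℝ} {ψ G : ℕ → H} {k : ℕ} {M A : ℝ} (hM : 0 ≤ M)
    (hc : ∀ l < k, 0 ≤ c l ∧ c l ≤ 1) (hψ : ∀ l < k, ‖ψ l‖ ≤ A) (hG : ∀ l < k, ‖G l‖ ≤ M) :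
    ‖stp c ψ G k‖ ≤ M + k * A := by
  induction k with
  | zero => simpa [stp] using hM
  | succ k ih =>
    have h := ih (fun l hl => hc l (by omega)) (fun l hl => hψ l (by omega))
      (fun l hl => hG l (by omega))
    obtain ⟨h0, h1⟩ := hc k (by omega)
    have hA : 0 ≤ A := (norm_nonneg _).trans (hψ k (by omega))
    rw [stp]
    calc ‖(1 - c k) • stp c ψ G k + (c k • G k - ψ k)‖
        ≤ ‖(1 - c k) • stp c ψ G k‖ + (‖c k • G k‖ + ‖ψ k‖) :=
          (norm_add_le _ _).trans (add_le_add le_rfl (norm_sub_le _ _))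
      _ ≤ (1 - c k) * (M + k * A) + (c k * M + A) := by
          rw [norm_smul, norm_smul, Real.norm_of_nonneg (by linarith), Real.norm_of_nonneg h0]
          have := hG k (by omega)
          have := hψ k (by omega)
          have h3 : (1 - c k) * ‖stp c ψ G k‖ ≤ (1 - c k) * (M + k * A) :=
            mul_le_mul_of_nonneg_left h (by linarith)
          have h4 : c k * ‖G k‖ ≤ c k * M := mul_le_mul_of_nonneg_left (by assumption) h0
          linarith
      _ ≤ M + ((k + 1 : ℕ) : ℝ) * A := by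
          push_cast
          have : 0 ≤ c k * (k * A) := by positivity
          nlinarith

theorem norm_gk_le {c : ℕ → ℕ → ℝ} {ψ : ℕ → ℕ → H} {n : ℕ} {A : ℝ} (hA : 0 ≤ A)
    (h : ∀ k < n, gk c ψ k = 0 ∨ ∀ l < k, (0 ≤ c k l ∧ c k l ≤ 1) ∧ ‖ψ k l‖ ≤ A) :
    ∀ k < n, ‖gk c ψ k‖ ≤ (k : ℝ) ^ 2 * A := by
  intro k
  induction k using Nat.strong_induction_on with
  | _ k ih =>
    intro hk
    rcases h k hk with h0 | h1
    · rw [h0, norm_zero]; positivity
    · rcases k with _ | k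
      · simp [gk_eq, stp]
      rw [gk_eq]
      have h2 : ∀ l < k + 1, ‖gk c ψ l‖ ≤ (k : ℝ) ^ 2 * A := by
        intro l hl
        refine (ih l hl (by omega)).trans ?_
        gcongr
        omega
      have h3 := norm_stp_le (c := c (k + 1)) (ψ := ψ (k + 1)) (G := gk c ψ) (k := k + 1)
        (M := (k : ℝ) ^ 2 * A) (A := A) (by positivity) (fun l hl => (h1 l hl).1)
        (fun l hl => (h1 l hl).2) h2
      refine h3.trans ?_
      push_cast
      nlinarith [Nat.cast_nonneg (α := ℝ) k]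

/-- the formal derivative of one line -/
def dstp (c c' : ℕ → ℝ) (ψ ψ' G G' : ℕ → H) : ℕ → H
  | 0 => 0
  | l + 1 => (1 - c l) • dstp c c' ψ ψ' G G' l - c' l • stp c ψ G l +
      (c l • G' l + c' l • G l - ψ' l)

theorem norm_dstp_le {c c' : ℕ → ℝ} {ψ ψ' G G' : ℕ → H} {k : ℕ} {M M' B C A' : ℝ} (hM' : 0 ≤ M')
    (hC : 0 ≤ C) (hB : 0 ≤ B)
    (hc : ∀ l < k, 0 ≤ c l ∧ c l ≤ 1) (hc' : ∀ l < k, |c' l| ≤ C) (hψ' : ∀ l < k, ‖ψ' l‖ ≤ A')
    (hG : ∀ l < k, ‖G l‖ ≤ M) (hG' : ∀ l < k, ‖G' l‖ ≤ M')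
    (hS : ∀ l < k, ‖stp c ψ G l‖ ≤ B) :
    ‖dstp c c' ψ ψ' G G' k‖ ≤ M' + k * (C * (M + B) + A') := by
  induction k with
  | zero => simpa [dstp] using hM'
  | succ k ih =>
    have h := ih (fun l hl => hc l (by omega)) (fun l hl => hc' l (by omega))
      (fun l hl => hψ' l (by omega)) (fun l hl => hG l (by omega)) (fun l hl => hG' l (by omega))
      (fun l hl => hS l (by omega))
    obtain ⟨h0, h1⟩ := hc k (by omega)
    have hcc := hc' k (by omega)
    have hA : 0 ≤ A' := (norm_nonneg _).trans (hψ' k (by omega))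
    have hM : 0 ≤ M := (norm_nonneg _).trans (hG k (by omega))
    have e1 := hG k (by omega)
    have e2 := hG' k (by omega)
    have e3 := hS k (by omega)
    have e4 := hψ' k (by omega)
    rw [dstp]
    calc ‖(1 - c k) • dstp c c' ψ ψ' G G' k - c' k • stp c ψ G k +
          (c k • G' k + c' k • G k - ψ' k)‖
        ≤ (‖(1 - c k) • dstp c c' ψ ψ' G G' k‖ + ‖c' k • stp c ψ G k‖) +
          ((‖c k • G' k‖ + ‖c' k • G k‖) + ‖ψ' k‖) :=
          (norm_add_le _ _).trans (add_le_add (norm_sub_le _ _) ((norm_sub_le _ _).trans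
            (add_le_add (norm_add_le _ _) le_rfl)))
      _ ≤ ((1 - c k) * (M' + k * (C * (M + B) + A')) + C * B) + ((c k * M' + C * M) + A') := by
          rw [norm_smul, norm_smul, norm_smul, norm_smul, Real.norm_of_nonneg (by linarith),
            Real.norm_of_nonneg h0, Real.norm_eq_abs]
          gcongr
      _ ≤ M' + ((k + 1 : ℕ) : ℝ) * (C * (M + B) + A') := by
          push_cast
          have : 0 ≤ c k * (k * (C * (M + B) + A')) := by positivity
          nlinarith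

variable {X : Type*} [NormedAddCommGroup X] [NormedSpace ℝ X]

theorem hasFDerivAt_stp {c : ℕ → X → ℝ} {ψ G : ℕ → X → H} {k : ℕ} {x : X}
    (hc : ∀ l < k, DifferentiableAt ℝ (c l) x) (hψ : ∀ l < k, DifferentiableAt ℝ (ψ l) x)
    (hG : ∀ l < k, DifferentiableAt ℝ (G l) x) :
    DifferentiableAt ℝ (fun z => stp (fun l => c l z) (fun l => ψ l z) (fun l => G l z) k) x ∧
    ∀ v, fderiv ℝ (fun z => stp (fun l => c l z) (fun l => ψ l z) (fun l => G l z) k) x v =
      dstp (fun l => c l x) (fun l => fderiv ℝ (c l) x v) (fun l => ψ l x)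
        (fun l => fderiv ℝ (ψ l) x v) (fun l => G l x) (fun l => fderiv ℝ (G l) x v) k := by
  induction k with
  | zero =>
    refine ⟨differentiableAt_const _, fun v => ?_⟩
    have : (fun z => stp (fun l => c l z) (fun l => ψ l z) (fun l => G l z) 0) =
      fun _ : X => (0 : H) := rfl
    rw [this]
    simp [dstp]
  | succ k ih =>
    obtain ⟨h1, h2⟩ := ih (fun l hl => hc l (by omega)) (fun l hl => hψ l (by omega))
      (fun l hl => hG l (by omega))
    have hck := (hc k (by omega)).hasFDerivAt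
    have hψk := (hψ k (by omega)).hasFDerivAt
    have hGk := (hG k (by omega)).hasFDerivAt
    have h3 := ((hck.const_sub 1).smul h1.hasFDerivAt).add ((hck.smul hGk).sub hψk)
    have h4 : (fun z => stp (fun l => c l z) (fun l => ψ l z) (fun l => G l z) (k + 1)) =
        fun z => (1 - c k z) • stp (fun l => c l z) (fun l => ψ l z) (fun l => G l z) k +
          (c k z • G k z - ψ k z) := rfl
    refine ⟨?_, fun v => ?_⟩
    · rw [h4]; exact h3.differentiableAt
    · have h5 : HasFDerivAt (fun z => (1 - c k z) •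
          stp (fun l => c l z) (fun l => ψ l z) (fun l => G l z) k +
          (c k z • G k z - ψ k z)) _ x := h3
      rw [h4, h5.fderiv]
      simp only [dstp, ← h2 v]
      simp only [_root_.add_apply, _root_.sub_apply, _root_.smul_apply,
        ContinuousLinearMap.smulRight_apply, _root_.neg_apply]
      module

/-- bound of g_k and of its derivative in a direction v -/
theorem norm_fderiv_gk_le {c : ℕ → ℕ → X → ℝ} {ψ : ℕ → ℕ → X → H} {n : ℕ} {x v : X}
    {A A' C : ℝ} (hA : 0 ≤ A) (hA' : 0 ≤ A') (hC : 0 ≤ C)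
    (h : ∀ k < n, (∀ᶠ z in 𝓝 x, gk (fun k l => c k l z) (fun k l => ψ k l z) k = 0) ∨
      ∀ l < k, (DifferentiableAt ℝ (c k l) x ∧ DifferentiableAt ℝ (ψ k l) x) ∧
        (0 ≤ c k l x ∧ c k l x ≤ 1) ∧ ‖ψ k l x‖ ≤ A ∧
        |fderiv ℝ (c k l) x v| ≤ C ∧ ‖fderiv ℝ (ψ k l) x v‖ ≤ A') :
    ∀ k < n, DifferentiableAt ℝ (fun z => gk (fun k l => c k l z) (fun k l => ψ k l z) k) x ∧
      ‖fderiv ℝ (fun z => gk (fun k l => c k l z) (fun k l => ψ k l z) k) x v‖ ≤
        (k : ℝ) ^ 2 * (2 * C * (n : ℝ) ^ 2 * A + A') := by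
  have hval : ∀ k < n, ‖gk (fun k l => c k l x) (fun k l => ψ k l x) k‖ ≤ (k : ℝ) ^ 2 * A := by
    apply norm_gk_le hA
    intro k hk
    rcases h k hk with h0 | h1
    · exact Or.inl h0.self_of_nhds
    · exact Or.inr fun l hl => ⟨(h1 l hl).2.1, (h1 l hl).2.2.1⟩
  intro k
  induction k using Nat.strong_induction_on with
  | _ k ih =>
    intro hk
    rcases h k hk with h0 | h1
    · have h2 : HasFDerivAt (fun z => gk (fun k l => c k l z) (fun k l => ψ k l z) k)
          (0 : X →L[ℝ] H) x := (hasFDerivAt_const (0 : H) x).congr_of_eventuallyEq h0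
      refine ⟨h2.differentiableAt, ?_⟩
      rw [h2.fderiv]
      simp only [_root_.zero_apply, norm_zero]
      positivity
    · have h3 := hasFDerivAt_stp (c := c k) (ψ := ψ k)
        (G := fun l z => gk (fun k l => c k l z) (fun k l => ψ k l z) l) (k := k) (x := x)
        (fun l hl => (h1 l hl).1.1) (fun l hl => (h1 l hl).1.2) (fun l hl => (ih l hl (by omega)).1)
      have h4 : (fun z => gk (fun k l => c k l z) (fun k l => ψ k l z) k) = fun z =>
          stp (fun l => c k l z) (fun l => ψ k l z)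
            (fun l => gk (fun k l => c k l z) (fun k l => ψ k l z) l) k := by
        funext z
        exact gk_eq _ _ _
      rw [h4]
      refine ⟨h3.1, ?_⟩
      rw [h3.2 v]
      rcases k with _ | k
      · simp [dstp]
      have hkn : (k : ℝ) + 1 ≤ n := by exact_mod_cast hk.le
      have hk0 : (0 : ℝ) ≤ k := Nat.cast_nonneg k
      have hM : ∀ l < k + 1, ‖gk (fun k l => c k l x) (fun k l => ψ k l x) l‖ ≤ (k : ℝ) ^ 2 * A := by
        intro l hl
        refine (hval l (by omega)).trans ?_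
        gcongr
        omega
      have hS : ∀ l < k + 1, ‖stp (fun l => c (k + 1) l x) (fun l => ψ (k + 1) l x)
          (fun l => gk (fun k l => c k l x) (fun k l => ψ k l x) l) l‖ ≤ (n : ℝ) ^ 2 * A := by
        intro l hl
        refine (norm_stp_le (M := (k : ℝ) ^ 2 * A) (A := A) (by positivity)
          (fun j hj => (h1 j (by omega)).2.1) (fun j hj => (h1 j (by omega)).2.2.1)
          (fun j hj => hM j (by omega))).trans ?_
        have hlk : (l : ℝ) ≤ k := by exact_mod_cast (by omega : l ≤ k)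
        have e1 : (l : ℝ) * A ≤ k * A := by gcongr
        have e2 : ((k : ℝ) ^ 2 + k) * A ≤ (n : ℝ) ^ 2 * A := by
          have : (k : ℝ) ^ 2 + k ≤ (n : ℝ) ^ 2 := by nlinarith
          gcongr
        linarith
      have hD := norm_dstp_le (c := fun l => c (k + 1) l x)
        (c' := fun l => fderiv ℝ (c (k + 1) l) x v) (ψ := fun l => ψ (k + 1) l x)
        (ψ' := fun l => fderiv ℝ (ψ (k + 1) l) x v)
        (G := fun l => gk (fun k l => c k l x) (fun k l => ψ k l x) l)
        (G' := fun l => fderiv ℝ (fun z => gk (fun k l => c k l z) (fun k l => ψ k l z) l) x v)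
        (k := k + 1) (M := (n : ℝ) ^ 2 * A)
        (M' := (k : ℝ) ^ 2 * (2 * C * (n : ℝ) ^ 2 * A + A')) (B := (n : ℝ) ^ 2 * A) (C := C)
        (A' := A') (by positivity) hC (by positivity) (fun l hl => (h1 l hl).2.1)
        (fun l hl => (h1 l hl).2.2.2.1) (fun l hl => (h1 l hl).2.2.2.2)
        (fun l hl => (hM l hl).trans (by gcongr; linarith))
        (fun l hl => (ih l hl (by omega)).2.trans (by
          gcongr
          omega)) hS
      refine hD.trans ?_
      push_cast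
      have e3 : C * ((n : ℝ) ^ 2 * A + (n : ℝ) ^ 2 * A) + A' = 2 * C * (n : ℝ) ^ 2 * A + A' := by
        ring
      rw [e3]
      have e4 : 0 ≤ 2 * C * (n : ℝ) ^ 2 * A + A' := by positivity
      nlinarith

/-- BOUNDS over Fin n: |g_k| ≤ n² A, |D g_k(v)| ≤ n² (2 C n² A + A'). -/
theorem norm_fderiv_gfun_le {n : ℕ} {c : Fin n → Fin n → X → ℝ} {ψ : Fin n → Fin n → X → H}
    {x v : X} {A A' C : ℝ} (hA : 0 ≤ A) (hA' : 0 ≤ A') (hC : 0 ≤ C)
    (h : ∀ k, (∀ᶠ z in 𝓝 x, gfun c ψ k z = 0) ∨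
      ∀ l, l < k → (DifferentiableAt ℝ (c k l) x ∧ DifferentiableAt ℝ (ψ k l) x) ∧
        (0 ≤ c k l x ∧ c k l x ≤ 1) ∧ ‖ψ k l x‖ ≤ A ∧
        |fderiv ℝ (c k l) x v| ≤ C ∧ ‖fderiv ℝ (ψ k l) x v‖ ≤ A') (k : Fin n) :
    DifferentiableAt ℝ (gfun c ψ k) x ∧ ‖gfun c ψ k x‖ ≤ (n : ℝ) ^ 2 * A ∧
      ‖fderiv ℝ (gfun c ψ k) x v‖ ≤ (n : ℝ) ^ 2 * (2 * C * (n : ℝ) ^ 2 * A + A') := by
  have hfun : ∀ k : Fin n, gfun c ψ k = fun z => gk (fun k l => ex (fun _ => 0) c k l z)
      (fun k l => ex (fun _ => 0) ψ k l z) k := fun k => by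
    funext z
    exact gfun_eq _ _ _ _
  have h' : ∀ k < n, (∀ᶠ z in 𝓝 x, gk (fun k l => ex (fun _ => (0 : ℝ)) c k l z)
      (fun k l => ex (fun _ => (0 : H)) ψ k l z) k = 0) ∨
      ∀ l < k, (DifferentiableAt ℝ (ex (fun _ => (0 : ℝ)) c k l) x ∧
        DifferentiableAt ℝ (ex (fun _ => (0 : H)) ψ k l) x) ∧
        (0 ≤ ex (fun _ => (0 : ℝ)) c k l x ∧ ex (fun _ => (0 : ℝ)) c k l x ≤ 1) ∧
        ‖ex (fun _ => (0 : H)) ψ k l x‖ ≤ A ∧
        |fderiv ℝ (ex (fun _ => (0 : ℝ)) c k l) x v| ≤ C ∧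
        ‖fderiv ℝ (ex (fun _ => (0 : H)) ψ k l) x v‖ ≤ A' := by
    intro k hk
    rcases h ⟨k, hk⟩ with h0 | h1
    · left
      rw [hfun] at h0
      exact h0
    · right
      intro l hl
      rw [ex_apply _ _ hk (lt_trans hl hk), ex_apply _ _ hk (lt_trans hl hk)]
      exact h1 _ hl
  have h1 := norm_fderiv_gk_le (c := ex (fun _ => (0 : ℝ)) c) (ψ := ex (fun _ => (0 : H)) ψ)
    (n := n) (x := x) (v := v) hA hA' hC h' k k.2
  have h2 := norm_gk_le (c := fun k l => ex (fun _ => (0 : ℝ)) c k l x)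
    (ψ := fun k l => ex (fun _ => (0 : H)) ψ k l x) (n := n) (A := A) hA (fun k hk => by
      rcases h' k hk with h0 | h1
      · exact Or.inl h0.self_of_nhds
      · exact Or.inr fun l hl => ⟨(h1 l hl).2.1, (h1 l hl).2.2.1⟩) k k.2
  have hkn : ((k : ℕ) : ℝ) ≤ n := by exact_mod_cast k.2.le
  rw [hfun]
  refine ⟨h1.1, h2.trans (by gcongr), h1.2.trans (by gcongr)⟩

end Bounds

/-! ## Relabelling -/

section Perm

variable {E H G : Type*} [NormedAddCommGroup E] [NormedSpace ℝ E]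
  [NormedAddCommGroup H] [NormedSpace ℝ H] [NormedAddCommGroup G] [NormedSpace ℝ G] {p q : ℕ}

/-- the permutation of Fin (p+q) which is the identity on the first p and π on the last q -/
def rightPerm (p : ℕ) (π : Equiv.Perm (Fin q)) : Equiv.Perm (Fin (p + q)) :=
  finSumFinEquiv.permCongr (Equiv.Perm.sumCongr 1 π)

theorem rightPerm_natAdd (π : Equiv.Perm (Fin q)) (j : Fin q) :
    rightPerm p π (Fin.natAdd p j) = Fin.natAdd p (π j) := by
  simp [rightPerm, Equiv.permCongr_apply]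

theorem rightPerm_castAdd (π : Equiv.Perm (Fin q)) (i : Fin p) :
    rightPerm p π (Fin.castAdd q i) = Fin.castAdd q i := by
  simp [rightPerm, Equiv.permCongr_apply]

theorem sign_rightPerm (π : Equiv.Perm (Fin q)) :
    Equiv.Perm.sign (rightPerm p π) = Equiv.Perm.sign π := by
  rw [rightPerm, Equiv.Perm.sign_permCongr, Equiv.Perm.sign_sumCongr]
  simp

/-- RELABELLING of the one-forms by a symmetry π of T. -/
theorem wedgeT_perm (F : E [⋀^Fin p]→L[ℝ] ℝ)
    (T : ContinuousMultilinearMap ℝ (fun _ : Fin q => H) G) (θ : Fin q → E →L[ℝ] H)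
    (π : Equiv.Perm (Fin q)) (hT : ∀ v : Fin q → H, T (fun j => v (π j)) = T v) :
    wedgeT F T (fun j => θ (π j)) = Equiv.Perm.sign π • wedgeT F T θ := by
  ext w
  have h1 : (Equiv.Perm.sign π • wedgeT F T θ) w = Equiv.Perm.sign π • wedgeT F T θ w := by
    rcases Int.units_eq_one_or (Equiv.Perm.sign π) with h | h <;> simp [h]
  rw [h1, wedgeT_apply, wedgeT_apply, smul_comm (Equiv.Perm.sign π)]
  congr 1
  rw [Finset.smul_sum]
  refine Fintype.sum_equiv (Equiv.mulRight (rightPerm p π⁻¹)) _ _ fun σ => ?_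
  have h2 : ∀ j : Fin q, rightPerm p π⁻¹ (Fin.natAdd p j) = Fin.natAdd p (π⁻¹ j) :=
    fun j => rightPerm_natAdd _ j
  have h3 := hT (fun j => θ j (w (σ (Fin.natAdd p (π⁻¹ j)))))
  simp only [Equiv.coe_mulRight, Equiv.Perm.mul_apply, rightPerm_castAdd, h2,
    Equiv.Perm.sign_mul, sign_rightPerm, Equiv.Perm.sign_inv]
  rw [← h3]
  have h4 : ∀ j, π⁻¹ (π j) = j := fun j => Equiv.symm_apply_apply π j
  simp only [h4]
  rw [smul_smul, mul_comm (Equiv.Perm.sign π), mul_assoc, Int.units_mul_self, mul_one]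

end Perm

end

end Vale.Agent.P273.H973
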