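import Vale.Agent.P273.H973.Lin
import Vale.Agent.P273.H653.Reg
import Vale.Agent.P273.H653.Chg
import Vale.Agent.P273.H578.Root

/-!
# P273, row GAUGE: the gauge of a one mark gauge

`gaugeOf O : H95.Gauge` with the forms `th O` (the recursion over the marks of one type).
-/

noncomputable section

namespace Vale.Agent.P273.H973

open H681 H95

/-- **the gauge of a one mark gauge** -/
def gaugeOf (O : One) : Gauge where
  θ := th O
  add := fun j ξ ζ S e v => th_add O j ξ ζ S e v
  smul := fun j c ξ S e v => th_smul O j c ξ S e v
  const := fun j S e v => th_const O j S e v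
  reg := fun j ξ S e v => th_reg O j ξ S e v
  root := H578.th_root O
  col := H578.th_col O
  chg := fun j ξ S S' e v => th_chg O j ξ S S' e v
  law := fun j ξ S e v i => th_law O j ξ S e v i

theorem gaugeOf_th (O : One) : (gaugeOf O).θ = th O := rfl

end Vale.Agent.P273.H973

end
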