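import Vale.Agent.P273.H973.GaugeOf
import Vale.Agent.P273.H580.The

/-!
# P273, row GAUGE: the harmonic gauge
-/

noncomputable section

namespace Vale.Agent.P273.H973

open H681 H95

/-- **the harmonic gauge** -/
def gauge0 : Gauge := gaugeOf H580.theOne

end Vale.Agent.P273.H973

end
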