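import Vale.Agent.P273.H973.Omega

/-!
# P273, block OMEGA (helper973): collapse of the collision cut-offs

The recursion of helper258 in terms of single valued functions: g_k = U_k - u(p_k),
g_k^0 = 0, g_k^(l+1) = (1 - c_kl) g_k^l + (c_kl g_l - ψ_kl), g_k = g_k^k.
-/

open scoped ContDiff Topology
open Finset Function Filter

namespace Vale.Agent.P273.H973

noncomputable section

/-! ## The recursion over ℕ -/

section Rec

variable {H H' : Type*} [AddCommGroup H] [Module ℝ H] [AddCommGroup H'] [Module ℝ H']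

/-- one line of the recursion -/
def stp (c : ℕ → ℝ) (ψ G : ℕ → H) : ℕ → H
  | 0 => 0
  | l + 1 => (1 - c l) • stp c ψ G l + (c l • G l - ψ l)

/-- the first lines of the recursion -/
def gs (c : ℕ → ℕ → ℝ) (ψ : ℕ → ℕ → H) : ℕ → ℕ → H
  | 0 => fun _ => 0
  | k + 1 => Function.update (gs c ψ k) k (stp (c k) (ψ k) (gs c ψ k) k)

/-- the solution of the recursion -/
def gk (c : ℕ → ℕ → ℝ) (ψ : ℕ → ℕ → H) (k : ℕ) : H := gs c ψ (k + 1) k

theorem stp_congr {c c' : ℕ → ℝ} {ψ ψ' G G' : ℕ → H} {k : ℕ} (hc : ∀ l < k, c l = c' l)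
    (hψ : ∀ l < k, ψ l = ψ' l) (hG : ∀ l < k, G l = G' l) : stp c ψ G k = stp c' ψ' G' k := by
  induction k with
  | zero => rfl
  | succ k ih =>
    have := ih (fun l hl => hc l (by omega)) (fun l hl => hψ l (by omega))
      (fun l hl => hG l (by omega))
    simp only [stp, this, hc k (by omega), hψ k (by omega), hG k (by omega)]

theorem gs_of_lt (c : ℕ → ℕ → ℝ) (ψ : ℕ → ℕ → H) {l m : ℕ} (h : l < m) :
    gs c ψ m l = gk c ψ l := by
  induction m with
  | zero => omega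
  | succ m ih =>
    rcases Nat.lt_succ_iff_lt_or_eq.1 h with h | rfl
    · rw [gs, Function.update_of_ne (by omega), ih h]
    · rfl

theorem gk_eq (c : ℕ → ℕ → ℝ) (ψ : ℕ → ℕ → H) (k : ℕ) :
    gk c ψ k = stp (c k) (ψ k) (gk c ψ) k := by
  rw [gk, gs, Function.update_self]
  exact stp_congr (fun _ _ => rfl) (fun _ _ => rfl) fun l hl => gs_of_lt c ψ hl

theorem gk_congr {c c' : ℕ → ℕ → ℝ} {ψ ψ' : ℕ → ℕ → H} {k : ℕ}
    (hc : ∀ j ≤ k, ∀ l < j, c j l = c' j l) (hψ : ∀ j ≤ k, ∀ l < j, ψ j l = ψ' j l) :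
    gk c ψ k = gk c' ψ' k := by
  induction k using Nat.strong_induction_on with
  | _ k ih =>
    rw [gk_eq, gk_eq]
    exact stp_congr (fun l hl => hc k le_rfl l hl) (fun l hl => hψ k le_rfl l hl)
      fun l hl => ih l hl (fun j hj => hc j (by omega)) (fun j hj => hψ j (by omega))

/-- values which stay in a submodule-like set: everything vanishes -/
theorem stp_eq_zero {c : ℕ → ℝ} {ψ G : ℕ → H} {k : ℕ} (h : ∀ l < k, c l • G l - ψ l = 0) :
    stp c ψ G k = 0 := by
  induction k with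
  | zero => rfl
  | succ k ih =>
    rw [stp, ih fun l hl => h l (by omega), h k (by omega)]
    simp

/-- once a value is reached it is kept -/
theorem stp_eq {c : ℕ → ℝ} {ψ G : ℕ → H} {l k : ℕ} {v : H} (hlk : l < k) (hl : c l = 1)
    (hv : G l - ψ l = v) (hm : ∀ m, l < m → m < k → c m • G m - ψ m = c m • v) :
    stp c ψ G k = v := by
  induction k with
  | zero => omega
  | succ k ih =>
    rw [stp]
    rcases Nat.lt_succ_iff_lt_or_eq.1 hlk with h | rfl
    · rw [ih h fun m h1 h2 => hm m h1 (by omega), hm k h (by omega), sub_smul, one_smul]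
      abel
    · rw [hl, one_smul, sub_self, zero_smul, zero_add, hv]

theorem stp_map (A : H →ₗ[ℝ] H') (c : ℕ → ℝ) (ψ G : ℕ → H) (k : ℕ) :
    A (stp c ψ G k) = stp c (fun l => A (ψ l)) (fun l => A (G l)) k := by
  induction k with
  | zero => simp [stp]
  | succ k ih => simp [stp, ih]

theorem gk_map (A : H →ₗ[ℝ] H') (c : ℕ → ℕ → ℝ) (ψ : ℕ → ℕ → H) (k : ℕ) :
    A (gk c ψ k) = gk c (fun k l => A (ψ k l)) k := by
  induction k using Nat.strong_induction_on with
  | _ k ih =>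
    rw [gk_eq, gk_eq, stp_map]
    exact stp_congr (fun _ _ => rfl) (fun _ _ => rfl) fun l hl => ih l hl

theorem gk_collapse {c : ℕ → ℕ → ℝ} {ψ d : ℕ → ℕ → H} {N : ℕ → ℕ → Prop} {n : ℕ}
    (h1 : ∀ k l, l < k → k < n → N k l → c k l = 1 ∧ ψ k l = d k l)
    (h2 : ∀ k l m, l < m → m < k → k < n → N k l → c k m ≠ 0 →
      N m l ∧ d k m + d m l = d k l)
    (h3 : ∀ k m, m < k → k < n → ψ k m = c k m • d k m) :
    ∀ k l, l < k → k < n → N k l → gk c ψ k = gk c ψ l - d k l := by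
  intro k
  induction k using Nat.strong_induction_on with
  | _ k ih =>
    intro l hlk hk hN
    rw [gk_eq]
    refine stp_eq hlk (h1 k l hlk hk hN).1 (by rw [(h1 k l hlk hk hN).2]) fun m hlm hmk => ?_
    rcases eq_or_ne (c k m) 0 with h0 | h0
    · rw [h3 k m hmk hk, h0]; simp
    · obtain ⟨hN', hd⟩ := h2 k l m hlm hmk hk hN h0
      rw [h3 k m hmk hk, ih m hmk l hlm (by omega) hN', ← hd, ← smul_sub]
      congr 1
      abel

theorem gk_region {c : ℕ → ℕ → ℝ} {ψ : ℕ → ℕ → H} {V : ℕ → Prop} {n : ℕ}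
    (h1 : ∀ k l, l < k → k < n → V k → c k l ≠ 0 → V l)
    (h2 : ∀ k l, l < k → k < n → V k → ψ k l = 0) :
    ∀ k, k < n → V k → gk c ψ k = 0 := by
  intro k
  induction k using Nat.strong_induction_on with
  | _ k ih =>
    intro hk hV
    rw [gk_eq]
    refine stp_eq_zero fun l hl => ?_
    rw [h2 k l hl hk hV, sub_zero]
    rcases eq_or_ne (c k l) 0 with h0 | h0
    · rw [h0, zero_smul]
    · rw [ih l hl (by omega) (h1 k l hl hk hV h0), smul_zero]

end Rec

/-! ## The recursion over Fin n -/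

section FinRec

variable {H H' : Type*} [AddCommGroup H] [Module ℝ H] [AddCommGroup H'] [Module ℝ H'] {n : ℕ}

/-- extension of a table by a constant -/
def ex {α : Type*} (a : α) (c : Fin n → Fin n → α) (k l : ℕ) : α :=
  if h : k < n ∧ l < n then c ⟨k, h.1⟩ ⟨l, h.2⟩ else a

theorem ex_apply {α : Type*} (a : α) (c : Fin n → Fin n → α) {k l : ℕ} (hk : k < n) (hl : l < n) :
    ex a c k l = c ⟨k, hk⟩ ⟨l, hl⟩ := by
  rw [ex, dif_pos ⟨hk, hl⟩]

/-- The solution g_k of the recursion for a table of cut-offs c k l and of cut off differences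
ψ k l = c k l • δ k l (only the entries with l < k matter). -/
def gf (c : Fin n → Fin n → ℝ) (ψ : Fin n → Fin n → H) (k : Fin n) : H :=
  gk (ex 0 c) (ex 0 ψ) k

theorem gf_congr {c c' : Fin n → Fin n → ℝ} {ψ ψ' : Fin n → Fin n → H} (k : Fin n)
    (hc : ∀ j l, l < j → c j l = c' j l) (hψ : ∀ j l, l < j → ψ j l = ψ' j l) :
    gf c ψ k = gf c' ψ' k := by
  apply gk_congr
  · intro j hj l hl
    rw [ex_apply _ _ (lt_of_le_of_lt hj k.2) (lt_trans hl (lt_of_le_of_lt hj k.2)),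
      ex_apply _ _ (lt_of_le_of_lt hj k.2) (lt_trans hl (lt_of_le_of_lt hj k.2)), hc _ _ hl]
  · intro j hj l hl
    rw [ex_apply _ _ (lt_of_le_of_lt hj k.2) (lt_trans hl (lt_of_le_of_lt hj k.2)),
      ex_apply _ _ (lt_of_le_of_lt hj k.2) (lt_trans hl (lt_of_le_of_lt hj k.2)), hψ _ _ hl]

/-- linearity in the differences -/
theorem gf_map (A : H →ₗ[ℝ] H') (c : Fin n → Fin n → ℝ) (ψ : Fin n → Fin n → H) (k : Fin n) :
    A (gf c ψ k) = gf c (fun k l => A (ψ k l)) k := by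
  rw [gf, gk_map, gf]
  apply gk_congr
  · intro j hj l hl; rfl
  · intro j hj l hl
    rw [ex_apply _ _ (lt_of_le_of_lt hj k.2) (lt_trans hl (lt_of_le_of_lt hj k.2)),
      ex_apply _ _ (lt_of_le_of_lt hj k.2) (lt_trans hl (lt_of_le_of_lt hj k.2))]

/-- COLLAPSE (pointwise). -/
theorem gf_collapse {c : Fin n → Fin n → ℝ} {ψ d : Fin n → Fin n → H}
    {N : Fin n → Fin n → Prop}
    (h1 : ∀ k l, l < k → N k l → c k l = 1)
    (h2 : ∀ k l m, l < m → m < k → N k l → c k m ≠ 0 → N m l ∧ d k m + d m l = d k l)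
    (h3 : ∀ k m, m < k → ψ k m = c k m • d k m) {k l : Fin n} (hlk : l < k) (hN : N k l) :
    gf c ψ k = gf c ψ l - d k l := by
  have key := gk_collapse (c := ex 0 c) (ψ := ex 0 ψ) (d := ex 0 d) (N := ex False N) (n := n)
    (fun k l hl hk hN => by
      have hl' := lt_trans hl hk
      rw [ex_apply _ _ hk hl'] at hN ⊢
      rw [ex_apply _ _ hk hl', ex_apply _ _ hk hl', h3 _ _ hl, h1 _ _ hl hN, one_smul]
      exact ⟨rfl, rfl⟩)
    (fun k l m hlm hmk hk hN hc => by
      have hm := lt_trans hmk hk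
      have hl := lt_trans hlm hm
      rw [ex_apply _ _ hk hl] at hN
      rw [ex_apply _ _ hk hm] at hc
      rw [ex_apply _ _ hm hl, ex_apply _ _ hk hm, ex_apply _ _ hm hl, ex_apply _ _ hk hl]
      exact h2 _ _ _ hlm hmk hN hc)
    (fun k m hm hk => by
      have hm' := lt_trans hm hk
      rw [ex_apply _ _ hk hm', ex_apply _ _ hk hm', ex_apply _ _ hk hm']
      exact h3 _ _ hm) (k : ℕ) l hlk k.2 (by rw [ex_apply _ _ k.2 l.2]; exact hN)
  rw [ex_apply _ _ k.2 l.2] at key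
  exact key

/-- REGIONS in which the recursion is trivial (pointwise). -/
theorem gf_region {c : Fin n → Fin n → ℝ} {ψ : Fin n → Fin n → H} {V : Fin n → Prop}
    (h1 : ∀ k l, l < k → V k → c k l ≠ 0 → V l) (h2 : ∀ k l, l < k → V k → ψ k l = 0)
    {k : Fin n} (hV : V k) : gf c ψ k = 0 := by
  refine gk_region (c := ex 0 c) (ψ := ex 0 ψ) (V := fun k => ∃ h : k < n, V ⟨k, h⟩) (n := n)
    ?_ ?_ (k : ℕ) k.2 ⟨k.2, hV⟩
  · rintro k l hl hk ⟨_, hV⟩ hc
    have hl' := lt_trans hl hk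
    rw [ex_apply _ _ hk hl'] at hc
    exact ⟨hl', h1 _ _ hl hV hc⟩
  · rintro k l hl hk ⟨_, hV⟩
    have hl' := lt_trans hl hk
    rw [ex_apply _ _ hk hl']
    exact h2 _ _ hl hV

end FinRec

end

end Vale.Agent.P273.H973
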