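import Vale.Agent.P273.H973.Germ

/-!
# P273, row GAUGE-I (helper973): linearity and relabelling of the gauge
-/

noncomputable section

namespace Vale.Agent.P273.H973

open Set Filter H681 H95 MeasureTheory
open H578 (Pt fb chiT psiT Branch SCl Clo br brO rad Off Hs Small Nr cont cut)
open scoped Topology ContDiff

/-! ## The recursion is additive -/

theorem gf_add {H : Type*} [AddCommGroup H] [Module ℝ H] {n : ℕ} (c : Fin n → Fin n → ℝ)
    (ψ ψ' : Fin n → Fin n → H) (k : Fin n) :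
    gf c (fun k l => ψ k l + ψ' k l) k = gf c ψ k + gf c ψ' k := by
  have h1 := gf_map (LinearMap.fst ℝ H H) c (fun k l => (ψ k l, ψ' k l)) k
  have h2 := gf_map (LinearMap.snd ℝ H H) c (fun k l => (ψ k l, ψ' k l)) k
  have h3 := gf_map (LinearMap.fst ℝ H H + LinearMap.snd ℝ H H) c (fun k l => (ψ k l, ψ' k l)) k
  simp only [LinearMap.add_apply, LinearMap.fst_apply, LinearMap.snd_apply] at h1 h2 h3
  rw [← h3, h1, h2]

theorem gf_smul {H : Type*} [AddCommGroup H] [Module ℝ H] {n : ℕ} (c : Fin n → Fin n → ℝ)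
    (ψ : Fin n → Fin n → H) (a : ℝ) (k : Fin n) :
    gf c (fun k l => a • ψ k l) k = a • gf c ψ k :=
  (gf_map (a • (LinearMap.id : H →ₗ[ℝ] H)) c ψ k).symm

theorem gf_zero {H : Type*} [AddCommGroup H] [Module ℝ H] {n : ℕ} (c : Fin n → Fin n → ℝ)
    (k : Fin n) : gf c (fun _ _ => (0 : H)) k = 0 :=
  gf_region (V := fun _ => True) (fun _ _ _ _ _ => trivial) (fun _ _ _ _ => rfl) trivial

/-- theta_comp with values -/
theorem theta_comp_apply {X X' H : Type*} [NormedAddCommGroup X] [NormedSpace ℝ X]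
    [NormedAddCommGroup X'] [NormedSpace ℝ X'] [NormedAddCommGroup H] [NormedSpace ℝ H] {n : ℕ}
    {η : Fin n → X → X →L[ℝ] H} {c : Fin n → Fin n → X → ℝ}
    {ψ : Fin n → Fin n → X → H} {η' : Fin n → X' → X' →L[ℝ] H} {c' : Fin n → Fin n → X' → ℝ}
    {ψ' : Fin n → Fin n → X' → H} {φ : X' → X} {k : Fin n} {x : X'}
    (hc : ∀ᶠ z in 𝓝 x, ∀ j l, l < j → c' j l z = c j l (φ z))
    (hψ : ∀ᶠ z in 𝓝 x, ∀ j l, l < j → ψ' j l z = ψ j l (φ z))
    (hη : ∀ u, η' k x u = η k (φ x) (fderiv ℝ φ x u))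
    (hφ : DifferentiableAt ℝ φ x) (hg : DifferentiableAt ℝ (gfun c ψ k) (φ x)) (u : X') :
    theta η' c' ψ' k x u = theta η c ψ k (φ x) (fderiv ℝ φ x u) := by
  rw [theta_comp hc hψ (by ext u; exact hη u) hφ hg]
  rfl

/-! ## The differences -/

section Del

variable {V : Type*} [NormedAddCommGroup V] [NormedSpace ℝ V] {W : Set (Fin 6 → ℂ)}
  {b b' : Fin 6 → ℂ} {p q : ℂ × ℂ} {c : ℝ}
  {η η' η'' : (Fin 6 → ℂ) → ℂ → ℂ → ((Fin 6 → ℂ) × ℂ →L[ℝ] V)}

theorem seg_pt (b : Fin 6 → ℂ) (x x' : ℂ) (t : ℝ) :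
    ((b, x') : (Fin 6 → ℂ) × ℂ) + t • ((b, x) - (b, x')) = (b, x' + t • (x - x')) ∧
      ((b, x) : (Fin 6 → ℂ) × ℂ) - (b, x') = (0, x - x') := by
  constructor
  · rw [Prod.mk_sub_mk, sub_self, Prod.smul_mk, smul_zero, Prod.mk_add_mk, add_zero]
  · rw [Prod.mk_sub_mk, sub_self]

theorem seg_norm (x x' : ℂ) {t : ℝ} (h0 : 0 ≤ t) (h1 : t ≤ 1) :
    ‖x - (x' + t • (x - x'))‖ ≤ ‖x - x'‖ := by
  have h2 : x - (x' + t • (x - x')) = (1 - t) • (x - x') := by
    rw [sub_smul, one_smul]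
    abel
  rw [h2, norm_smul, Real.norm_of_nonneg (by linarith)]
  exact mul_le_of_le_one_left (norm_nonneg _) (by linarith)

/-- the value of the difference as an integral -/
theorem del_int (η : (Fin 6 → ℂ) → ℂ → ℂ → ((Fin 6 → ℂ) × ℂ →L[ℝ] V)) (b : Fin 6 → ℂ)
    (p q : ℂ × ℂ) : H578.del η b p q = ∫ t in (0 : ℝ)..1,
      η b (q.1 + t • (p.1 - q.1)) (cont b p (q.1 + t • (p.1 - q.1))) (0, p.1 - q.1) := by
  unfold H578.del H578.dl
  refine intervalIntegral.integral_congr fun t _ => ?_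
  obtain ⟨h1, h2⟩ := seg_pt b p.1 q.1 t
  show η (((b, q.1) : (Fin 6 → ℂ) × ℂ) + t • ((b, p.1) - (b, q.1))).1
    (((b, q.1) : (Fin 6 → ℂ) × ℂ) + t • ((b, p.1) - (b, q.1))).2
    (br b p (((b, q.1) : (Fin 6 → ℂ) × ℂ) + t • ((b, p.1) - (b, q.1))))
    (((b, p.1) : (Fin 6 → ℂ) × ℂ) - (b, q.1)) = _
  rw [h1, h2]
  rfl

theorem del_congr_seg (hb : fb b' = fb b) (h : ∀ x', ‖p.1 - x'‖ ≤ ‖p.1 - q.1‖ → ∀ w,
    η' b' x' (cont b p x') (0, w) = η b x' (cont b p x') (0, w)) :
    H578.del η' b' p q = H578.del η b p q := by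
  rw [del_int, del_int]
  refine intervalIntegral.integral_congr fun t ht => ?_
  rw [uIcc_of_le zero_le_one] at ht
  have h1 : ∀ x', cont b' p x' = cont b p x' := by
    intro x'
    unfold H578.cont
    rw [hb]
  show η' b' (q.1 + t • (p.1 - q.1)) (cont b' p (q.1 + t • (p.1 - q.1))) (0, p.1 - q.1) =
    η b (q.1 + t • (p.1 - q.1)) (cont b p (q.1 + t • (p.1 - q.1))) (0, p.1 - q.1)
  rw [h1]
  exact h _ (seg_norm _ _ ht.1 ht.2) _

/-- points on the segment of a near pair -/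
theorem pt_seg (hp : Pt b p) (hc : Small (Fin 6) c) (h : Nr c b p q) {x' : ℂ}
    (hx : ‖p.1 - x'‖ ≤ ‖p.1 - q.1‖) : Pt b (x', cont b p x') := by
  refine H578.cont_pt hp ?_
  refine (hx.trans_lt h.2).trans_le ?_
  exact mul_le_of_le_one_left (H578.Hs_nonneg _ _) (by linarith [hc.lt_one])

theorem del_sum [CompleteSpace V] (hη : SCl W η) (hη' : SCl W η') (hW : IsOpen W) (hb : b ∈ W)
    (hp : Pt b p) (hc : Small (Fin 6) c) (h : Nr c b p q)
    (hs : ∀ x' y', Pt b (x', y') → ∀ w, η'' b x' y' (0, w) = η b x' y' (0, w) +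
      η' b x' y' (0, w)) :
    H578.del η'' b p q = H578.del η b p q + H578.del η' b p q := by
  have hint : ∀ η : (Fin 6 → ℂ) → ℂ → ℂ → ((Fin 6 → ℂ) × ℂ →L[ℝ] V), SCl W η →
      IntervalIntegrable (fun t : ℝ => η b (q.1 + t • (p.1 - q.1))
        (cont b p (q.1 + t • (p.1 - q.1))) (0, p.1 - q.1)) volume 0 1 := by
    intro η hη
    refine ContinuousOn.intervalIntegrable ?_
    rw [uIcc_of_le zero_le_one]
    have hC := (hη.clo hW hp).smooth.continuousOn
    have h2 : ContinuousOn (fun t : ℝ => ((b, q.1 + t • (p.1 - q.1)) : (Fin 6 → ℂ) × ℂ))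
        (Icc 0 1) := by fun_prop
    have h3 : MapsTo (fun t : ℝ => ((b, q.1 + t • (p.1 - q.1)) : (Fin 6 → ℂ) × ℂ)) (Icc 0 1)
        (brO W b p) := by
      intro t ht
      exact H578.mem_brO_of hb hp hc ((seg_norm _ _ ht.1 ht.2).trans h.2.le)
    exact (hC.comp h2 h3).clm_apply continuousOn_const
  rw [del_int, del_int, del_int, ← intervalIntegral.integral_add (hint η hη) (hint η' hη')]
  refine intervalIntegral.integral_congr fun t ht => ?_
  rw [uIcc_of_le zero_le_one] at ht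
  exact hs _ _ (pt_seg hp hc h (seg_norm _ _ ht.1 ht.2)) _

theorem del_mul (hp : Pt b p) (hc : Small (Fin 6) c) (h : Nr c b p q) (a : ℝ)
    (hs : ∀ x' y', Pt b (x', y') → ∀ w, η'' b x' y' (0, w) = a • η b x' y' (0, w)) :
    H578.del η'' b p q = a • H578.del η b p q := by
  rw [del_int, del_int, ← intervalIntegral.integral_smul]
  refine intervalIntegral.integral_congr fun t ht => ?_
  rw [uIcc_of_le zero_le_one] at ht
  exact hs _ _ (pt_seg hp hc h (seg_norm _ _ ht.1 ht.2)) _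

variable {n : ℕ} {a : Fin n → Prop} {P : Fin n → ℂ × ℂ}

theorem psiT_congr (hb : fb b' = fb b) (hP : ∀ k, a k → (P k).2 ^ 2 = fb b (P k).1)
    (k l : Fin n) (hchi : chiT a b' P k l = chiT a b P k l)
    (h : ∀ x' y', Pt b (x', y') → ∀ w, η' b' x' y' (0, w) = η b x' y' (0, w)) :
    psiT η' a b' P k l = psiT η a b P k l := by
  unfold H578.psiT
  rw [hchi]
  by_cases hc : chiT a b P k l = 0
  · rw [hc, zero_smul, zero_smul]
  · obtain ⟨-, -, e3, -, e5, -⟩ := H578.of_chiT hP hc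
    rw [del_congr_seg hb fun x' hx w => h _ _ (pt_seg e3 (H578.small_rad _) e5 hx) w]

theorem psiT_add [CompleteSpace V] (hη : SCl W η) (hη' : SCl W η') (hW : IsOpen W) (hb : b ∈ W)
    (hP : ∀ k, a k → (P k).2 ^ 2 = fb b (P k).1) (k l : Fin n)
    (hs : ∀ x' y', Pt b (x', y') → ∀ w, η'' b x' y' (0, w) = η b x' y' (0, w) +
      η' b x' y' (0, w)) :
    psiT η'' a b P k l = psiT η a b P k l + psiT η' a b P k l := by
  unfold H578.psiT
  by_cases hc : chiT a b P k l = 0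
  · rw [hc, zero_smul, zero_smul, zero_smul, add_zero]
  · obtain ⟨-, -, e3, -, e5, -⟩ := H578.of_chiT hP hc
    rw [del_sum hη hη' hW hb e3 (H578.small_rad _) e5 hs, smul_add]

theorem psiT_mul (hP : ∀ k, a k → (P k).2 ^ 2 = fb b (P k).1) (k l : Fin n) (r : ℝ)
    (hs : ∀ x' y', Pt b (x', y') → ∀ w, η'' b x' y' (0, w) = r • η b x' y' (0, w)) :
    psiT η'' a b P k l = r • psiT η a b P k l := by
  unfold H578.psiT
  by_cases hc : chiT a b P k l = 0
  · rw [hc, zero_smul, zero_smul, smul_zero]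
  · obtain ⟨-, -, e3, -, e5, -⟩ := H578.of_chiT hP hc
    rw [del_mul e3 (H578.small_rad _) e5 r hs, smul_comm]

end Del

/-! ## The fields add, smul, const -/

section Fields

variable (O : One) {ξ ζ : Fin 6 → ℝ} {S : L → Bool} {t : Bool} {e : E} {v : L → ℂ}
  {V : E → L → ℂ}

theorem on1_pt {b : C6} {x y : ℂ} (h : Pt b (x, y)) : On1 false (b, x) y :=
  ⟨by rw [pol_false]; exact h.1, h.2⟩

theorem gfun_add (hξ : IsCl ξ) (hζ : IsCl ζ) (h : BrE S V e) (k : Fin 7) :
    gfun (cE S t V) (pE O (ξ + ζ) S t V) k =ᶠ[𝓝 e]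
      fun e' => gfun (cE S t V) (pE O ξ S t V) k e' + gfun (cE S t V) (pE O ζ S t V) k e' := by
  filter_upwards [h.ev] with e' h1
  have hP : ∀ k, fin S t e' k → (PP S t e' (V e') k).2 ^ 2 = fb e'.1 (PP S t e' (V e') k).1 :=
    fun k hk => (pt_PP h1.2.1 hk).1
  have h2 : ∀ k l, pE O (ξ + ζ) S t V k l e' = pE O ξ S t V k l e' + pE O ζ S t V k l e' := by
    intro k l
    refine psiT_add (scl_etx O hξ) (scl_etx O hζ) H401.isOpen_XX h1.1 hP k l fun x' y' hx w => ?_
    have h3 := O.add ξ ζ false (e'.1, x') y' hξ hζ h1.1 (on1_pt hx)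
    show O.η (ξ + ζ) false (e'.1, x') y' (0, w) = _
    rw [h3]
    rfl
  show gf _ (fun k l => pE O (ξ + ζ) S t V k l e') k = gf _ (fun k l => pE O ξ S t V k l e') k +
    gf _ (fun k l => pE O ζ S t V k l e') k
  simp only [h2]
  exact gf_add _ _ _ k

theorem gfun_smul (c : ℝ) (hξ : IsCl ξ) (h : BrE S V e) (k : Fin 7) :
    gfun (cE S t V) (pE O (c • ξ) S t V) k =ᶠ[𝓝 e]
      fun e' => c • gfun (cE S t V) (pE O ξ S t V) k e' := by
  filter_upwards [h.ev] with e' h1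
  have hP : ∀ k, fin S t e' k → (PP S t e' (V e') k).2 ^ 2 = fb e'.1 (PP S t e' (V e') k).1 :=
    fun k hk => (pt_PP h1.2.1 hk).1
  have h2 : ∀ k l, pE O (c • ξ) S t V k l e' = c • pE O ξ S t V k l e' := by
    intro k l
    refine psiT_mul hP k l c fun x' y' hx w => ?_
    have h3 := O.smul c ξ false (e'.1, x') y' hξ h1.1 (on1_pt hx)
    show O.η (c • ξ) false (e'.1, x') y' (0, w) = _
    rw [h3]
    rfl
  show gf _ (fun k l => pE O (c • ξ) S t V k l e') k = c • gf _ (fun k l => pE O ξ S t V k l e') k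
  simp only [h2]
  exact gf_smul _ _ c k

theorem gfun_const (h : BrE S V e) (k : Fin 7) :
    gfun (cE S t V) (pE O (fun _ => 1) S t V) k =ᶠ[𝓝 e] fun _ => (0 : ℝ) := by
  filter_upwards [h.ev] with e' h1
  have hP : ∀ k, fin S t e' k → (PP S t e' (V e') k).2 ^ 2 = fb e'.1 (PP S t e' (V e') k).1 :=
    fun k hk => (pt_PP h1.2.1 hk).1
  have h2 : ∀ k l, pE O (fun _ => 1) S t V k l e' = 0 := by
    intro k l
    have h4 : pE O (fun _ => 1) S t V k l e' = (0 : ℝ) • pE O (fun _ => 1) S t V k l e' := by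
      refine psiT_mul hP k l 0 fun x' y' hx w => ?_
      have h3 := O.const false (e'.1, x') y' h1.1 (on1_pt hx)
      show O.η (fun _ => 1) false (e'.1, x') y' (0, w) = _
      rw [h3, zero_smul]
      rfl
    rw [h4, zero_smul]
  show gf _ (fun k l => pE O (fun _ => 1) S t V k l e') k = 0
  simp only [h2]
  exact gf_zero _ k

theorem isCl_add' (hξ : IsCl ξ) (hζ : IsCl ζ) : IsCl (ξ + ζ) := by
  unfold IsCl at *
  simp only [Pi.add_apply, mul_add, Finset.sum_add_distrib, hξ, hζ, add_zero]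

theorem isCl_smul' (c : ℝ) (hξ : IsCl ξ) : IsCl (c • ξ) := by
  unfold IsCl at *
  have : ∀ k : Fin 6, (-1 : ℝ) ^ (k : ℕ) * (c • ξ) k = c * ((-1 : ℝ) ^ (k : ℕ) * ξ k) :=
    fun k => by simp only [Pi.smul_apply, smul_eq_mul]; ring
  simp only [this]
  rw [← Finset.mul_sum, hξ, mul_zero]

/-- field add -/
theorem th_add (j : L) (ξ ζ : Fin 6 → ℝ) (S : L → Bool) (e : E) (v : L → ℂ) (hξ : IsCl ξ)
    (hζ : IsCl ζ) : th O j (ξ + ζ) S e v = th O j ξ S e v + th O j ζ S e v := by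
  by_cases h : e.1 ∈ XX ∧ OnC S (rts e.1) e.2 v
  · have hB := brE_BrE h.1 h.2
    rw [th_good O _ h.1 h.2, th_good O _ h.1 h.2, th_good O _ h.1 h.2]
    have h1 := Filter.EventuallyEq.fderiv_eq (𝕜 := ℝ) (gfun_add (t := j.2) O hξ hζ hB j.1)
    have h2 := (gfun_smooth (t := j.2) O hξ hB j.1).differentiableAt (by simp)
    have h3 := (gfun_smooth (t := j.2) O hζ hB j.1).differentiableAt (by simp)
    have h4 := fderiv_add h2 h3
    have h5 := O.add ξ ζ (S (j.1, j.2)) (prj (j.1, j.2) e) (brE S e v e (j.1, j.2)) hξ hζ h.1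
      (hB.onC (j.1, j.2))
    show (O.η (ξ + ζ) (S (j.1, j.2)) (prj (j.1, j.2) e) (brE S e v e (j.1, j.2))).comp
        (prj (j.1, j.2)) + fderiv ℝ (gfun (cE S j.2 (brE S e v)) (pE O (ξ + ζ) S j.2 (brE S e v))
          j.1) e =
      ((O.η ξ (S (j.1, j.2)) (prj (j.1, j.2) e) (brE S e v e (j.1, j.2))).comp (prj (j.1, j.2)) +
        fderiv ℝ (gfun (cE S j.2 (brE S e v)) (pE O ξ S j.2 (brE S e v)) j.1) e) +
      ((O.η ζ (S (j.1, j.2)) (prj (j.1, j.2) e) (brE S e v e (j.1, j.2))).comp (prj (j.1, j.2)) +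
        fderiv ℝ (gfun (cE S j.2 (brE S e v)) (pE O ζ S j.2 (brE S e v)) j.1) e)
    rw [h1, h5]
    have h6 : fderiv ℝ (fun e' => gfun (cE S j.2 (brE S e v)) (pE O ξ S j.2 (brE S e v)) j.1 e' +
        gfun (cE S j.2 (brE S e v)) (pE O ζ S j.2 (brE S e v)) j.1 e') e =
      fderiv ℝ (gfun (cE S j.2 (brE S e v)) (pE O ξ S j.2 (brE S e v)) j.1) e +
      fderiv ℝ (gfun (cE S j.2 (brE S e v)) (pE O ζ S j.2 (brE S e v)) j.1) e := h4
    rw [h6, ContinuousLinearMap.add_comp]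
    abel
  · rw [th_bad O _ h, th_bad O _ h, th_bad O _ h, add_zero]

/-- field smul -/
theorem th_smul (j : L) (c : ℝ) (ξ : Fin 6 → ℝ) (S : L → Bool) (e : E) (v : L → ℂ)
    (hξ : IsCl ξ) : th O j (c • ξ) S e v = c • th O j ξ S e v := by
  by_cases h : e.1 ∈ XX ∧ OnC S (rts e.1) e.2 v
  · have hB := brE_BrE h.1 h.2
    rw [th_good O _ h.1 h.2, th_good O _ h.1 h.2]
    have h1 := Filter.EventuallyEq.fderiv_eq (𝕜 := ℝ) (gfun_smul (t := j.2) O c hξ hB j.1)
    have h2 := (gfun_smooth (t := j.2) O hξ hB j.1).differentiableAt (by simp)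
    have h5 := O.smul c ξ (S (j.1, j.2)) (prj (j.1, j.2) e) (brE S e v e (j.1, j.2)) hξ h.1
      (hB.onC (j.1, j.2))
    show (O.η (c • ξ) (S (j.1, j.2)) (prj (j.1, j.2) e) (brE S e v e (j.1, j.2))).comp
        (prj (j.1, j.2)) + fderiv ℝ (gfun (cE S j.2 (brE S e v)) (pE O (c • ξ) S j.2 (brE S e v))
          j.1) e =
      c • ((O.η ξ (S (j.1, j.2)) (prj (j.1, j.2) e) (brE S e v e (j.1, j.2))).comp
        (prj (j.1, j.2)) +
        fderiv ℝ (gfun (cE S j.2 (brE S e v)) (pE O ξ S j.2 (brE S e v)) j.1) e)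
    rw [h1, h5]
    have h6 : fderiv ℝ (fun e' => c • gfun (cE S j.2 (brE S e v)) (pE O ξ S j.2 (brE S e v)) j.1
        e') e = c • fderiv ℝ (gfun (cE S j.2 (brE S e v)) (pE O ξ S j.2 (brE S e v)) j.1) e :=
      fderiv_const_smul h2 c
    rw [h6, ContinuousLinearMap.smul_comp, smul_add]
  · rw [th_bad O _ h, th_bad O _ h, smul_zero]

/-- field const -/
theorem th_const (j : L) (S : L → Bool) (e : E) (v : L → ℂ) :
    th O j (fun _ => 1) S e v = 0 := by
  by_cases h : e.1 ∈ XX ∧ OnC S (rts e.1) e.2 v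
  · have hB := brE_BrE h.1 h.2
    rw [th_good O _ h.1 h.2]
    have h1 := Filter.EventuallyEq.fderiv_eq (𝕜 := ℝ) (gfun_const (t := j.2) O hB j.1)
    have h5 := O.const (S (j.1, j.2)) (prj (j.1, j.2) e) (brE S e v e (j.1, j.2)) h.1
      (hB.onC (j.1, j.2))
    show (O.η (fun _ => 1) (S (j.1, j.2)) (prj (j.1, j.2) e) (brE S e v e (j.1, j.2))).comp
        (prj (j.1, j.2)) + fderiv ℝ (gfun (cE S j.2 (brE S e v)) (pE O (fun _ => 1) S j.2
          (brE S e v)) j.1) e = 0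
    rw [h1, h5]
    simp
  · rw [th_bad O _ h]

/-! ## The half twist -/

theorem rts_swL (i : Fin 5) (b : C6) : rts (swL i b) = rts b := by
  have h1 : (∏ k : Fin 6, (Polynomial.X - Polynomial.C (swL i b k))) =
      ∏ k : Fin 6, (Polynomial.X - Polynomial.C (b k)) :=
    Equiv.prod_comp (H681.sw i) fun k => (Polynomial.X - Polynomial.C (b k))
  unfold rts
  rw [h1]

theorem swL_mem {i : Fin 5} {b : C6} (hb : b ∈ XX) (hi : (b i.succ).re < (b i.castSucc).re) :
    swL i b ∈ XX := by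
  intro k l hkl hre
  have hsw : ∀ m, swL i b m = b (H681.sw i m) := fun m => rfl
  rw [hsw, hsw] at hre ⊢
  rcases eq_or_ne (H681.sw i k) (H681.sw i l) with h0 | h0
  · exact absurd ((H681.sw i).injective h0) hkl.ne
  rcases lt_or_gt_of_ne h0 with h1 | h1
  · exact hb _ _ h1 hre
  · exfalso
    have h2 : k = i.castSucc ∧ l = i.succ := by
      unfold H681.sw at h1
      by_cases hk : k = i.castSucc
      · refine ⟨hk, ?_⟩
        by_contra hl
        rw [hk, Equiv.swap_apply_left] at h1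
        have hl' : l ≠ i.castSucc := fun h => by rw [hk, h] at hkl; exact lt_irrefl _ hkl
        rw [Equiv.swap_apply_of_ne_of_ne hl' hl] at h1
        have e1 : (i.castSucc : ℕ) < l := by rw [hk] at hkl; exact hkl
        have e2 : (l : ℕ) < i.succ := h1
        simp at e1 e2
        omega
      · by_cases hk' : k = i.succ
        · exfalso
          rw [hk', Equiv.swap_apply_right] at h1
          have hl : l ≠ i.castSucc := fun h => by
            rw [hk', h] at hkl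
            have : (i.succ : ℕ) < i.castSucc := hkl
            simp at this
          have hl' : l ≠ i.succ := fun h => by rw [hk', h] at hkl; exact lt_irrefl _ hkl
          rw [Equiv.swap_apply_of_ne_of_ne hl hl'] at h1
          have e1 : (i.succ : ℕ) < l := by rw [hk'] at hkl; exact hkl
          have e2 : (l : ℕ) < i.castSucc := h1
          simp at e1 e2
          omega
        · exfalso
          rw [Equiv.swap_apply_of_ne_of_ne hk hk'] at h1
          by_cases hl : l = i.castSucc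
          · rw [hl, Equiv.swap_apply_left] at h1
            have e1 : (k : ℕ) < i.castSucc := by rw [hl] at hkl; exact hkl
            have e2 : (i.succ : ℕ) < k := h1
            simp at e1 e2
            omega
          · by_cases hl' : l = i.succ
            · rw [hl', Equiv.swap_apply_right] at h1
              have e1 : (k : ℕ) < i.succ := by rw [hl'] at hkl; exact hkl
              have e2 : (i.castSucc : ℕ) < k := h1
              simp at e1 e2
              omega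
            · rw [Equiv.swap_apply_of_ne_of_ne hl hl'] at h1
              exact lt_asymm hkl h1
    rw [h2.1, h2.2] at hre
    unfold H681.sw at hre
    rw [Equiv.swap_apply_left, Equiv.swap_apply_right] at hre
    exact hi.ne hre

theorem chiT_swL {n : ℕ} (i : Fin 5) (a : Fin n → Prop) (b : C6) (P : Fin n → ℂ × ℂ) (k l : Fin n) :
    chiT a (swL i b) P k l = chiT a b P k l := by
  have h1 : cut (rad k) (swL i b) (P k) (P l) = cut (rad k) b (P k) (P l) :=
    H578.cut_perm _ _ _ _ (H681.sw i)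
  unfold H578.chiT
  rw [h1]

theorem fb_swL (i : Fin 5) (b : C6) : fb (swL i b) = fb b := H578.fb_perm b (H681.sw i)

theorem brE_swL (S : L → Bool) (e : E) (v : L → ℂ) (i : Fin 5) (e' : E) :
    brE S (swL i e.1, e.2) v (swL i e'.1, e'.2) = brE S e v e' := by
  funext j
  unfold brE
  show v j * (pol (S j) (rts (swL i e'.1)) (e'.2 j) / pol (S j) (rts (swL i e.1)) (e.2 j)) ^ _ = _
  rw [rts_swL, rts_swL]

theorem isCl_act (i : Fin 5) (hξ : IsCl ξ) : IsCl (act i ξ) := by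
  unfold IsCl at *
  rw [← hξ]
  simp only [Fin.sum_univ_six]
  fin_cases i <;> simp [act] <;> ring

/-- the relabelling on E -/
def Asw (i : Fin 5) : E →L[ℝ] E := (swL i).prodMap (ContinuousLinearMap.id ℝ (L → ℂ))

theorem Asw_apply (i : Fin 5) (e : E) : Asw i e = (swL i e.1, e.2) := rfl

theorem cE_Asw (S : L → Bool) (t : Bool) (e : E) (v : L → ℂ) (i : Fin 5) (e' : E) (k l : Fin 7) :
    cE S t (brE S e v) k l e' = cE S t (brE S (Asw i e) v) k l (Asw i e') := by
  unfold cE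
  rw [Asw_apply, Asw_apply, brE_swL]
  exact (chiT_swL i (fin S t e') e'.1 (PP S t e' (brE S e v e')) k l).symm

theorem pE_Asw (hξ : IsCl ξ) (i : Fin 5) {e' : E} (h1 : e'.1 ∈ XX)
    (h2 : (e'.1 i.succ).re < (e'.1 i.castSucc).re)
    (h3 : OnC S (rts e'.1) e'.2 (brE S e v e')) (k l : Fin 7) :
    pE O ξ S t (brE S e v) k l e' = pE O (act i ξ) S t (brE S (Asw i e) v) k l (Asw i e') := by
  symm
  unfold pE
  rw [Asw_apply, Asw_apply, brE_swL]
  refine psiT_congr (fb_swL i e'.1) (fun m hm => (pt_PP h3 hm).1) k l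
    (chiT_swL i (fin S t e') e'.1 (PP S t e' (brE S e v e')) k l) ?_
  intro x' y' hx w
  have h7 := O.law ξ false (e'.1, x') y' i hξ h1 h2 (on1_pt hx)
  show O.η (act i ξ) false (swL i e'.1, x') y' (0, w) = O.η ξ false (e'.1, x') y' (0, w)
  rw [h7]
  show _ = O.η (act i ξ) false (swL i e'.1, x') y' (swL i 0, w)
  rw [map_zero]

theorem etaE_Asw (hξ : IsCl ξ) (i : Fin 5) (hb : e.1 ∈ XX)
    (hi : (e.1 i.succ).re < (e.1 i.castSucc).re) (h : OnC S (rts e.1) e.2 v) (j : L) :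
    etaE O ξ S (brE S e v) j e =
      (etaE O (act i ξ) S (brE S (Asw i e) v) j (Asw i e)).comp (Asw i) := by
  have hB := brE_BrE hb h
  unfold etaE
  rw [Asw_apply, brE_swL, O.law ξ (S j) (prj j e) (brE S e v e j) i hξ hb hi (hB.onC j)]
  rfl

/-- field law -/
theorem th_law (j : L) (ξ : Fin 6 → ℝ) (S : L → Bool) (e : E) (v : L → ℂ) (i : Fin 5)
    (hξ : IsCl ξ) (hb : e.1 ∈ XX) (hi : (e.1 i.succ).re < (e.1 i.castSucc).re)
    (h : OnC S (rts e.1) e.2 v) :
    th O j ξ S e v = (th O j (act i ξ) S (swL i e.1, e.2) v).comp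
      ((swL i).prodMap (ContinuousLinearMap.id ℝ (L → ℂ))) := by
  have hb' : (Asw i e).1 ∈ XX := swL_mem hb hi
  have h' : OnC S (rts (Asw i e).1) (Asw i e).2 v := by
    show OnC S (rts (swL i e.1)) e.2 v
    rw [rts_swL]
    exact h
  have hB := brE_BrE hb h
  have hB' := brE_BrE hb' h'
  have hev : ∀ᶠ e' : E in 𝓝 e, (e'.1 i.succ).re < (e'.1 i.castSucc).re := by
    have hc : Continuous (fun e' : E => (e'.1 i.castSucc).re - (e'.1 i.succ).re) := by fun_prop
    have h0 : 0 < (e.1 i.castSucc).re - (e.1 i.succ).re := by linarith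
    filter_upwards [hc.continuousAt.eventually (lt_mem_nhds h0)] with e' he'
    linarith
  have hp : ∀ᶠ e' in 𝓝 e, ∀ k l : Fin 7, l < k → pE O ξ S j.2 (brE S e v) k l e' =
      pE O (act i ξ) S j.2 (brE S (Asw i e) v) k l (Asw i e') := by
    filter_upwards [hev, hB.ev] with e' h2 h3 k l _
    exact pE_Asw O hξ i h3.1 h2 h3.2.1 k l
  have hc : ∀ᶠ e' in 𝓝 e, ∀ k l : Fin 7, l < k → cE S j.2 (brE S e v) k l e' =
      cE S j.2 (brE S (Asw i e) v) k l (Asw i e') := by
    filter_upwards with e' k l _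
    exact cE_Asw S j.2 e v i e' k l
  have hφ : ∀ u, fderiv ℝ (⇑(Asw i)) e u = Asw i u := fun u => by rw [(Asw i).fderiv]
  have hη : ∀ u, etaE O ξ S (brE S e v) (j.1, j.2) e u =
      etaE O (act i ξ) S (brE S (Asw i e) v) (j.1, j.2) (Asw i e) (fderiv ℝ (⇑(Asw i)) e u) := by
    intro u
    rw [hφ, etaE_Asw O hξ i hb hi h (j.1, j.2)]
    rfl
  have hg : DifferentiableAt ℝ (gfun (cE S j.2 (brE S (Asw i e) v))
      (pE O (act i ξ) S j.2 (brE S (Asw i e) v)) j.1) (Asw i e) :=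
    (gfun_smooth (t := j.2) O (isCl_act i hξ) hB' j.1).differentiableAt (by simp)
  have key := theta_comp_apply (η := fun k z => etaE O (act i ξ) S (brE S (Asw i e) v) (k, j.2) z)
    (η' := fun k z => etaE O ξ S (brE S e v) (k, j.2) z) (φ := ⇑(Asw i)) (k := j.1) (x := e)
    hc hp hη (Asw i).differentiableAt hg
  rw [th_good O _ hb h]
  have h2 : th O j (act i ξ) S (swL i e.1, e.2) v =
      thE O (act i ξ) S (brE S (Asw i e) v) j (Asw i e) := th_good O _ hb' h' j
  rw [h2]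
  refine ContinuousLinearMap.ext fun u => ?_
  have h3 := key u
  rw [hφ] at h3
  exact h3

end Fields

end Vale.Agent.P273.H973

end
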