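import Vale.Agent.P273.H724.T2c
import Vale.Agent.P273.H738.InB
import Vale.Agent.P273.H213.InCF
import Vale.Agent.P273.H578.InA0
import Vale.Agent.P273.H655.A4
import Vale.Agent.P273.H655.Disc
import Vale.Agent.P273.H768.T2fin
import Vale.Agent.P273.H965.ColG
import Vale.Agent.P273.H973.GaugeOf

/-!
# P273, (T2) of ASY0: from the one mark form to the gauge

`asyL_of_one`: the asymptotic properties of the legs of the one mark form pass to the legs of the
gauge (the recursion over the marks of one type). `asy_of_fam`: all of `Asy` for the gauge of a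
family of flat potentials.
-/

noncomputable section

namespace Vale.Agent.P273.H973

open Set Filter H681 H95 H732 H562 H578 H803
open scoped Topology ContDiff

/-- all the inputs of the recursion near the theta point -/
theorem exists_hins {O : One} (hV : Vert O) (hD : H778.Disc0 O) :
    ∃ K N₀ : ℝ, 1 ≤ K ∧ 1 ≤ N₀ ∧ H778.HIns O K N₀ :=
  H778.exists_ins H578.inA0 (H655.inA4 H578.inA0 hD) H724.inAN H738.inB1 H738.inB2 H738.inB3
    H738.inB4 (H213.inC1 hV) H213.inC2

/-- **(T2)** -/
theorem asyL_of_one {κ : Fin 3 → Fin 3 → ℝ} {O : One} (hA : AsyL κ (lgP O)) (hV : Vert O)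
    (hD : H778.Disc0 O) (h5 : H768.T2.InB5) :
    AsyL κ fun R m S j ξ p => leg R m (gaugeOf O) S j ξ p := by
  obtain ⟨K, M, hK, hM, hI⟩ := exists_hins hV hD
  have hθ : ∀ j ξ S e v, (gaugeOf O).θ j ξ S e v = th O j ξ S e v := fun _ _ _ _ _ => rfl
  exact
    { b1 := H778.t2_b1 hA hK hM hI
      b2 := H778.t2_b2 hA hK hM hI
      b4 := H778.t2_b4 hA hK hM hI
      b5 := H724.t2_b5' hA hK hM hI
      b6 := H724.t2_b6' hA hK hM hI
      limN := H768.T2.limN hA hV H578.inA0 hθ H768.T2.inF1 (H768.T2.inF2 κ) h5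
      limC := H768.T2.limC hA hV H578.inA0 hθ H768.T2.inF1 (H768.T2.inF2 κ) h5
      lim0 := H768.T2.lim0 hA hV H578.inA0 hθ H768.T2.inF1 h5 }

/-- **the asymptotic properties at the theta point of the gauge of a family of flat potentials**,
from those of the one mark form -/
theorem asy_of_fam {κ : Fin 3 → Fin 3 → ℝ} {Φ : H214.FlatFam} (hA : AsyL κ (lgP (H214.oneOf Φ)))
    (hV : Vert (H214.oneOf Φ)) (h5 : H768.T2.InB5) : Asy κ (gaugeOf (H214.oneOf Φ)) :=
  asy_of_asyL (asyL_of_one hA hV (H655.disc0_oneOf Φ) h5)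
    (H965.col_of Φ (gaugeOf_th (H214.oneOf Φ)))

end Vale.Agent.P273.H973

end
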